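import Vale.Agent.P193.Clapham.Britton

/-!
# The free base group

`Base = FreeGroup ℤ ⋊ ℤ` is free on `x` and `t = of 0`; `t z` is the shift of `t` by `z`.
An affine map gives the injective endomorphism `aff r m`.  Subgroups generated by decidable sets of
`t z`, the ranges of the `aff` and their products are decidable.
-/

namespace Vale.Agent.P193.Clapham

open FreeGroup (mk of)

section Closure

variable {α : Type}

/-- The subgroup generated by a set of free generators. -/
def clo (S : Set α) : Subgroup (FreeGroup α) := Subgroup.closure (FreeGroup.of '' S)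

open Classical in
/-- The retraction killing the generators outside `S`. -/
noncomputable def ret (S : Set α) : FreeGroup α →* FreeGroup α :=
  FreeGroup.lift fun z => if z ∈ S then FreeGroup.of z else 1

theorem of_mem_clo {S : Set α} {z : α} (h : z ∈ S) : FreeGroup.of z ∈ clo S :=
  Subgroup.subset_closure ⟨z, h, rfl⟩

theorem ret_mem (S : Set α) (x : FreeGroup α) : ret S x ∈ clo S := by
  refine FreeGroup.range_lift_le (Set.range_subset_iff.2 fun z => ?_) ⟨x, rfl⟩
  by_cases h : z ∈ S
  · simpa [h] using of_mem_clo h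
  · simp [h]

theorem mem_clo_iff {S : Set α} {x : FreeGroup α} : x ∈ clo S ↔ ret S x = x := by
  refine ⟨fun h => ?_, fun h => h ▸ ret_mem S x⟩
  induction h using Subgroup.closure_induction with
  | mem x hx => obtain ⟨z, hz, rfl⟩ := hx; simp [ret, hz]
  | one => simp
  | mul x y _ _ hx hy => simp [hx, hy]
  | inv x _ hx => simp [hx]

theorem ret_mem_inter {S C : Set α} {x : FreeGroup α} (h : x ∈ clo S) :
    ret C x ∈ clo (S ∩ C) := by
  induction h using Subgroup.closure_induction with
  | mem x hx =>
    obtain ⟨z, hz, rfl⟩ := hx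
    by_cases hc : z ∈ C
    · simpa [ret, hc] using of_mem_clo (S := S ∩ C) ⟨hz, hc⟩
    · simp [ret, hc]
  | one => simp
  | mul x y _ _ hx hy => rw [map_mul]; exact mul_mem hx hy
  | inv x _ hx => rw [map_inv]; exact inv_mem hx

theorem mem_clo_inter {S C : Set α} {x : FreeGroup α} (hS : x ∈ clo S) (hC : x ∈ clo C) :
    x ∈ clo (S ∩ C) := by
  rw [← mem_clo_iff.1 hC]
  exact ret_mem_inter hS

theorem clo_mono {S T : Set α} (h : S ⊆ T) : clo S ≤ clo T :=
  Subgroup.closure_mono (Set.image_mono h)

/-- The product of two such subgroups is detected by one retraction. -/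
theorem exists_mul_iff {S C : Set α} {x : FreeGroup α} :
    (∃ a ∈ clo S, a⁻¹ * x ∈ clo C) ↔ x * (ret C x)⁻¹ ∈ clo S := by
  constructor
  · rintro ⟨a, ha, hc⟩
    have h := mem_clo_iff.1 hc
    rw [map_mul, map_inv] at h
    have h' : ret C x = ret C a * (a⁻¹ * x) := by rw [← h]; simp
    rw [h']
    simpa [mul_assoc] using mul_mem ha (inv_mem (clo_mono Set.inter_subset_left
      (ret_mem_inter (C := C) ha)))
  · exact fun h => ⟨_, h, by simpa using ret_mem C x⟩

theorem ret_mk {S : Set α} (c : α → Bool) (hc : ∀ z, c z = true ↔ z ∈ S) (L : Wd α) :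
    ret S (FreeGroup.mk L) = FreeGroup.mk (L.filter fun a => c a.1) := by
  rw [ret, ← ev_eq_lift, ← ev_of (List.filter _ L)]
  induction L with
  | nil => rfl
  | cons a L ih =>
    obtain ⟨z, b⟩ := a
    by_cases h : z ∈ S
    · have hz : c z = true := (hc z).2 h
      simp only [List.filter_cons, hz, if_true, ev_cons, ih]
      cases b <;> simp [evL, h]
    · have hz : c z = false := Bool.eq_false_iff.2 (mt (hc z).1 h)
      simp only [List.filter_cons, hz, Bool.false_eq_true, if_false, ev_cons, ih]
      cases b <;> simp [evL, h]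

variable [Primcodable α]

theorem computable_filter {c : α → Bool} (hc : Computable c) :
    Computable fun L : Wd α => L.filter fun a => c a.1 := by
  have h : Computable₂ fun (acc : Wd α) (a : α × Bool) => bif c a.1 then acc ++ [a] else acc :=
    Computable.to₂ <| Computable.cond (hc.comp (Computable.fst.comp Computable.snd))
      (Computable.list_append.comp Computable.fst
        (Computable.list_cons.comp Computable.snd (Computable.const []))) Computable.fst
  refine (computable_foldl (f := fun L : Wd α => L) (i := fun _ => ([] : Wd α))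
    Computable.id (Computable.const []) h).of_eq fun L => ?_
  suffices H : ∀ acc, L.foldl (fun acc a => bif c a.1 then acc ++ [a] else acc) acc =
      acc ++ L.filter (fun a => c a.1) by simpa using H []
  induction L with
  | nil => simp
  | cons a L ih => intro acc; cases h : c a.1 <;> simp [h, ih]

/-- The test for `clo S`. -/
def cloTest [DecidableEq α] (c : α → Bool) (L : Wd α) : Bool :=
  decide (FreeGroup.reduce (invW L ++ L.filter fun a => c a.1) = [])

theorem computable_cloTest [DecidableEq α] {c : α → Bool} (hc : Computable c) :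
    Computable (cloTest c) := by
  have h := (Primrec.eq.comp (primrec_reduce (α := α)) (Primrec.const [])).decide.to_comp.comp
    (Computable.list_append.comp (primrec_invW (α := α)).to_comp (computable_filter hc))
  exact h

theorem cloTest_iff [DecidableEq α] {S : Set α} {c : α → Bool} (hc : ∀ z, c z = true ↔ z ∈ S)
    (L : Wd α) : cloTest c L = true ↔ FreeGroup.mk L ∈ clo S := by
  rw [cloTest, decide_eq_true_iff, ← mk_eq_one, ← FreeGroup.mul_mk, mem_clo_iff, ret_mk c hc,
    ← ev_of (invW L), ev_invW, ev_of, inv_mul_eq_one]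
  exact eq_comm

end Closure

/-- The shifting action. -/
def shiftHom : Multiplicative ℤ →* MulAut (FreeGroup ℤ) where
  toFun k := FreeGroup.freeGroupCongr (Equiv.addRight k.toAdd)
  map_one' := MulEquiv.toMonoidHom_injective <| FreeGroup.ext_hom _ _ fun z => by simp
  map_mul' k l := MulEquiv.toMonoidHom_injective <| FreeGroup.ext_hom _ _ fun z => by
    simp only [MulEquiv.coe_toMonoidHom, MulAut.mul_apply]
    simp [add_comm k.toAdd, add_assoc]

/-- The base group, free on two generators. -/
abbrev Base : Type := FreeGroup ℤ ⋊[shiftHom] Multiplicative ℤ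

/-- `t z`. -/
def tz (z : ℤ) : Base := SemidirectProduct.inl (FreeGroup.of z)

/-- The shifting element. -/
def xB : Base := SemidirectProduct.inr (Multiplicative.ofAdd 1)

/-- The two generators: `true ↦ x`, `false ↦ t`. -/
def genB (b : Bool) : Base := cond b xB (tz 0)

theorem shiftHom_of (k : Multiplicative ℤ) (z : ℤ) :
    shiftHom k (FreeGroup.of z) = FreeGroup.of (z + k.toAdd) := by
  simp [shiftHom]

theorem inr_mul_tz (k z : ℤ) :
    (SemidirectProduct.inr (Multiplicative.ofAdd k) : Base) * tz z =
      tz (z + k) * SemidirectProduct.inr (Multiplicative.ofAdd k) := by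
  ext <;> simp [tz, shiftHom_of]

/-- Shift the letters of a word. -/
def shiftW (up : Bool) (L : Wd ℤ) : Wd ℤ :=
  L.map fun a => (cond up (a.1 + 1) (a.1 - 1), a.2)

/-- Prepend a letter to a model of an element of the base. -/
def stepB (a : Bool × Bool) (M : Wd ℤ × ℤ) : Wd ℤ × ℤ :=
  cond a.1 (shiftW a.2 M.1, cond a.2 (M.2 + 1) (M.2 - 1)) ((0, a.2) :: M.1, M.2)

/-- A model of the value of a word in the base. -/
def modelB (w : Wd Bool) : Wd ℤ × ℤ := w.foldr stepB ([], 0)

theorem mk_shiftW (up : Bool) (L : Wd ℤ) :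
    FreeGroup.mk (shiftW up L) =
      shiftHom (Multiplicative.ofAdd (cond up 1 (-1))) (FreeGroup.mk L) := by
  rw [show shiftHom (Multiplicative.ofAdd (cond up 1 (-1))) (FreeGroup.mk L) =
    FreeGroup.map (fun z => z + cond up (1 : ℤ) (-1)) (FreeGroup.mk L) from rfl, FreeGroup.map.mk]
  cases up <;> simp [shiftW, sub_eq_add_neg]

theorem ev_genB (w : Wd Bool) :
    ev genB w = (⟨FreeGroup.mk (modelB w).1, Multiplicative.ofAdd (modelB w).2⟩ : Base) := by
  induction w with
  | nil => rfl
  | cons a w ih =>
    rw [ev_cons, ih, show modelB (a :: w) = stepB a (modelB w) from rfl]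
    obtain ⟨_ | _, b⟩ := a
    · cases b <;> refine SemidirectProduct.ext ?_ ?_ <;>
        simp [stepB, evL, genB, tz, FreeGroup.of, FreeGroup.inv_mk, FreeGroup.mul_mk,
          FreeGroup.invRev]
    · cases b <;> refine SemidirectProduct.ext ?_ ?_ <;>
        simp [stepB, evL, genB, xB, mk_shiftW, sub_eq_neg_add, add_comm]

theorem inr_mem_closure (k : ℤ) :
    (SemidirectProduct.inr (Multiplicative.ofAdd k) : Base) ∈
      Subgroup.closure (Set.range genB) := by
  have : (SemidirectProduct.inr (Multiplicative.ofAdd k) : Base) = xB ^ k := by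
    rw [xB, ← map_zpow, ← ofAdd_zsmul, smul_eq_mul, mul_one]
  rw [this]
  exact Subgroup.zpow_mem _ (Subgroup.subset_closure (Set.mem_range_self (f := genB) true)) k

theorem tz_mem_closure (z : ℤ) : tz z ∈ Subgroup.closure (Set.range genB) := by
  have h := inr_mul_tz z 0
  rw [zero_add] at h
  rw [eq_mul_inv_of_mul_eq h.symm]
  exact mul_mem (mul_mem (inr_mem_closure z) (Subgroup.subset_closure (Set.mem_range_self (f := genB) false)))
    (inv_mem (inr_mem_closure z))

theorem gen_genB : Gen genB := by
  refine gen_of_closure _ ((Subgroup.eq_top_iff' _).2 fun x => ?_)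
  rw [← SemidirectProduct.inl_left_mul_inr_right x]
  refine mul_mem ?_ (by simpa using inr_mem_closure x.right.toAdd)
  have h : x.left ∈ (Subgroup.closure (Set.range genB)).comap
      (SemidirectProduct.inl : FreeGroup ℤ →* Base) := by
    refine (Subgroup.closure_le _).2 ?_ ((FreeGroup.closure_range_of ℤ).symm ▸ Subgroup.mem_top _)
    rintro _ ⟨z, rfl⟩
    exact tz_mem_closure z
  exact h

/-- `Base` is free on `genB`. -/
theorem free_genB {H : Type} [Group H] (h : Bool → H) :
    ∃ f : Base →* H, ∀ b, f (genB b) = h b := by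
  refine ⟨SemidirectProduct.lift (FreeGroup.lift fun z : ℤ => h true ^ z * h false * (h true ^ z)⁻¹)
    (zpowersHom H (h true)) ?_, fun b => ?_⟩
  · intro k
    refine FreeGroup.ext_hom _ _ fun z => ?_
    simp [shiftHom_of, zpow_add, add_comm z, mul_assoc, MulAut.conj_apply, -map_zpow]
  · cases b <;> simp [genB, tz, xB]

theorem encode_add_one (z : ℤ) : Encodable.encode (z + 1) =
    if Encodable.encode z % 2 = 0 then Encodable.encode z + 2 else Encodable.encode z - 2 := by
  rcases z with n | _ | n
  · rw [show Encodable.encode (Int.ofNat n) = 2 * n from rfl,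
      show Encodable.encode (Int.ofNat n + 1) = 2 * (n + 1) from rfl]
    simp [mul_add]
  · rfl
  · rw [show Encodable.encode (Int.negSucc (n + 1)) = 2 * (n + 1) + 1 from rfl,
      show Encodable.encode (Int.negSucc (n + 1) + 1) = 2 * n + 1 from rfl]
    rw [if_neg (by omega)]
    omega

theorem encode_sub_one (z : ℤ) : Encodable.encode (z - 1) =
    if Encodable.encode z % 2 = 0 then (if Encodable.encode z = 0 then 1 else Encodable.encode z - 2)
    else Encodable.encode z + 2 := by
  rcases z with (_ | n) | n
  · rfl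
  · rw [show Encodable.encode (Int.ofNat (n + 1)) = 2 * (n + 1) from rfl,
      show Int.ofNat (n + 1) - 1 = Int.ofNat n by simp,
      show Encodable.encode (Int.ofNat n) = 2 * n from rfl]
    rw [if_pos (by omega), if_neg (by omega)]
    omega
  · rw [show Encodable.encode (Int.negSucc n) = 2 * n + 1 from rfl,
      show Int.negSucc n - 1 = Int.negSucc (n + 1) from rfl,
      show Encodable.encode (Int.negSucc (n + 1)) = 2 * (n + 1) + 1 from rfl]
    rw [if_neg (by omega)]
    omega

theorem primrec_addOne : Primrec fun z : ℤ => z + 1 :=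
  Primrec.encode_iff.1 <| (Primrec.ite
    (Primrec.eq.comp (Primrec.nat_mod.comp Primrec.encode (Primrec.const 2)) (Primrec.const 0))
    (Primrec.nat_add.comp Primrec.encode (Primrec.const 2))
    (Primrec.nat_sub.comp Primrec.encode (Primrec.const 2))).of_eq fun z => (encode_add_one z).symm

theorem primrec_subOne : Primrec fun z : ℤ => z - 1 :=
  Primrec.encode_iff.1 <| (Primrec.ite
    (Primrec.eq.comp (Primrec.nat_mod.comp Primrec.encode (Primrec.const 2)) (Primrec.const 0))
    (Primrec.ite (Primrec.eq.comp Primrec.encode (Primrec.const 0)) (Primrec.const 1)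
      (Primrec.nat_sub.comp Primrec.encode (Primrec.const 2)))
    (Primrec.nat_add.comp Primrec.encode (Primrec.const 2))).of_eq fun z => (encode_sub_one z).symm

theorem primrec_modelB : Primrec modelB := by
  have hs : Primrec fun p : Bool × ℤ => cond p.1 (p.2 + 1) (p.2 - 1) :=
    Primrec.cond Primrec.fst (primrec_addOne.comp Primrec.snd) (primrec_subOne.comp Primrec.snd)
  have hw : Primrec₂ shiftW := Primrec.to₂ <| Primrec.list_map Primrec.snd <| Primrec.to₂ <|
    (hs.comp ((Primrec.fst.comp Primrec.fst).pair (Primrec.fst.comp Primrec.snd))).pair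
      (Primrec.snd.comp Primrec.snd)
  have hb : Primrec₂ stepB := by
    have h1 : Primrec fun x : (Bool × Bool) × (Wd ℤ × ℤ) => x.1.1 :=
      Primrec.fst.comp Primrec.fst
    have h2 : Primrec fun x : (Bool × Bool) × (Wd ℤ × ℤ) => x.1.2 :=
      Primrec.snd.comp Primrec.fst
    have h3 : Primrec fun x : (Bool × Bool) × (Wd ℤ × ℤ) => x.2.1 :=
      Primrec.fst.comp Primrec.snd
    have h4 : Primrec fun x : (Bool × Bool) × (Wd ℤ × ℤ) => x.2.2 :=
      Primrec.snd.comp Primrec.snd
    exact Primrec.to₂ <| Primrec.cond h1 ((hw.comp h2 h3).pair (hs.comp (h2.pair h4)))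
      ((Primrec.list_cons.comp ((Primrec.const 0).pair h2) h3).pair h4)
  exact Primrec.list_foldr Primrec.id (Primrec.const ([], 0))
    (hb.comp (Primrec.fst.comp Primrec.snd) (Primrec.snd.comp Primrec.snd)).to₂

theorem decWP_genB : DecWP genB := by
  refine ⟨fun w => decide (FreeGroup.reduce (modelB w).1 = []) && decide ((modelB w).2 = 0), ?_,
    fun w => ?_⟩
  · exact (Primrec.and.comp
      (Primrec.eq.comp (primrec_reduce.comp (Primrec.fst.comp primrec_modelB))
        (Primrec.const [])).decide
      (Primrec.eq.comp (Primrec.snd.comp primrec_modelB) (Primrec.const (0 : ℤ))).decide).to_comp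
  · rw [Bool.and_eq_true, decide_eq_true_iff, decide_eq_true_iff, ← mk_eq_one,
      Set.mem_singleton_iff, ev_genB, SemidirectProduct.ext_iff]
    simp

/-- The integers congruent to `r` modulo `m`, as a computable test. -/
def classTest (r m : ℕ) (z : ℤ) : Bool :=
  decide ((if Encodable.encode z % 2 = 0 then Encodable.encode z / 2 % m
    else m - 1 - Encodable.encode z / 2 % m) = r)

theorem primrec_classTest (r m : ℕ) : Primrec (classTest r m) := by
  have h : Primrec fun z : ℤ => Encodable.encode z / 2 % m :=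
    Primrec.nat_mod.comp (Primrec.nat_div.comp Primrec.encode (Primrec.const 2)) (Primrec.const m)
  exact (Primrec.eq.comp (Primrec.ite
    (Primrec.eq.comp (Primrec.nat_mod.comp Primrec.encode (Primrec.const 2)) (Primrec.const 0)) h
    (Primrec.nat_sub.comp (Primrec.const (m - 1)) h)) (Primrec.const r)).decide

/-- The affine map on integers. -/
def affZ (r m : ℕ) (z : ℤ) : ℤ := r + m * z

theorem classTest_iff {r m : ℕ} (h : r < m) (z : ℤ) :
    classTest r m z = true ↔ z ∈ Set.range (affZ r m) := by
  have key : z ∈ Set.range (affZ r m) ↔ z % (m : ℤ) = r := by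
    constructor
    · rintro ⟨j, rfl⟩
      simp [affZ, Int.add_mul_emod_self_left, Int.emod_eq_of_lt, h]
    · exact fun e => ⟨z / m, by rw [affZ, ← e, Int.emod_add_mul_ediv]⟩
  rw [key, classTest, decide_eq_true_iff]
  rcases z with n | n
  · rw [show Encodable.encode (Int.ofNat n) = 2 * n from rfl, if_pos (by omega),
      Nat.mul_div_cancel_left _ (by omega)]
    rw [Int.ofNat_eq_natCast]
    norm_cast
  · rw [show Encodable.encode (Int.negSucc n) = 2 * n + 1 from rfl, if_neg (by omega),
      show (2 * n + 1) / 2 = n by omega, Int.negSucc_emod _ (by omega)]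
    have hn := Nat.mod_lt n (show m > 0 by omega)
    have hc : ((n : ℤ) % (m : ℤ)) = ((n % m : ℕ) : ℤ) := by push_cast; rfl
    rw [hc]
    omega

theorem affZ_injective {r m : ℕ} (h : 0 < m) : Function.Injective (affZ r m) := by
  intro a b e
  simp only [affZ, add_right_inj] at e
  exact mul_left_cancel₀ (by exact_mod_cast h.ne') e

/-- The endomorphism `t z ↦ t (r + m z)`, `x ↦ xᵐ`. -/
def aff (r m : ℕ) : Base →* Base :=
  SemidirectProduct.map (FreeGroup.map (affZ r m))
    (AddMonoidHom.toMultiplicative (AddMonoidHom.mulLeft (m : ℤ))) fun k =>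
    FreeGroup.ext_hom _ _ fun z => by
      simp only [MonoidHom.comp_apply, MulEquiv.coe_toMonoidHom, FreeGroup.map.of, shiftHom_of]
      refine congrArg FreeGroup.of ?_
      show affZ r m (z + k.toAdd) = affZ r m z + m * k.toAdd
      simp [affZ, mul_add, add_assoc]

theorem aff_tz (r m : ℕ) (z : ℤ) : aff r m (tz z) = tz (affZ r m z) := by
  simp [aff, tz]

theorem aff_injective {r m : ℕ} (h : 0 < m) : Function.Injective (aff r m) := by
  intro a b e
  have e1 := congrArg SemidirectProduct.left e
  have e2 := congrArg SemidirectProduct.right e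
  simp only [aff, SemidirectProduct.map_left, SemidirectProduct.map_right] at e1 e2
  refine SemidirectProduct.ext (FreeGroup.map_injective (affZ_injective (r := r) h) e1) ?_
  have e3 : (m : ℤ) * a.right.toAdd = m * b.right.toAdd := congrArg Multiplicative.toAdd e2
  exact Multiplicative.toAdd.injective (mul_left_cancel₀ (by exact_mod_cast h.ne') e3)

theorem mem_range_aff {r m : ℕ} (x : Base) :
    x ∈ (aff r m).range ↔
      (m : ℤ) ∣ x.right.toAdd ∧ x.left ∈ clo (Set.range (affZ r m)) := by
  have hr : (FreeGroup.map (affZ r m)).range = clo (Set.range (affZ r m)) := by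
    rw [FreeGroup.range_map]; rfl
  constructor
  · rintro ⟨y, rfl⟩
    exact ⟨⟨y.right.toAdd, rfl⟩, hr ▸ ⟨y.left, rfl⟩⟩
  · rintro ⟨⟨k, hk⟩, h⟩
    rw [← hr] at h
    obtain ⟨f, hf⟩ := h
    refine ⟨⟨f, Multiplicative.ofAdd k⟩, SemidirectProduct.ext hf ?_⟩
    exact Multiplicative.toAdd.injective hk.symm

/-- The subgroup generated by the `t z`, `z ∈ S`. -/
def tsub (S : Set ℤ) : Subgroup Base := (clo S).map SemidirectProduct.inl

theorem mem_tsub {S : Set ℤ} (x : Base) : x ∈ tsub S ↔ x.right = 1 ∧ x.left ∈ clo S := by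
  constructor
  · rintro ⟨f, hf, rfl⟩; exact ⟨rfl, hf⟩
  · rintro ⟨h1, h2⟩
    exact ⟨x.left, h2, SemidirectProduct.ext rfl (by simp [h1])⟩

theorem tz_mem_tsub {S : Set ℤ} {z : ℤ} (h : z ∈ S) : tz z ∈ tsub S :=
  ⟨_, of_mem_clo h, rfl⟩

theorem decIn_range_aff {r m : ℕ} (h : r < m) : DecIn genB ((aff r m).range : Set Base) := by
  refine ⟨fun w => classTest 0 m (modelB w).2 && cloTest (classTest r m) (modelB w).1, ?_,
    fun w => ?_⟩
  · exact Primrec.and.to_comp.comp
      ((primrec_classTest 0 m).to_comp.comp (Computable.snd.comp primrec_modelB.to_comp))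
      ((computable_cloTest (primrec_classTest r m).to_comp).comp
        (Computable.fst.comp primrec_modelB.to_comp))
  · rw [Bool.and_eq_true, classTest_iff (by omega), cloTest_iff (classTest_iff h), SetLike.mem_coe,
      mem_range_aff, ev_genB]
    exact and_congr ⟨fun ⟨j, hj⟩ => ⟨j, by simpa [affZ] using hj.symm⟩,
      fun ⟨j, hj⟩ => ⟨j, by simpa [affZ] using hj.symm⟩⟩ Iff.rfl

theorem decIn_tsub {S : Set ℤ} {c : ℤ → Bool} (hc : Computable c)
    (hS : ∀ z, c z = true ↔ z ∈ S) : DecIn genB (tsub S : Set Base) := by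
  refine ⟨fun w => decide ((modelB w).2 = 0) && cloTest c (modelB w).1, ?_, fun w => ?_⟩
  · exact Primrec.and.to_comp.comp
      (Primrec.eq.comp (Primrec.snd.comp primrec_modelB) (Primrec.const (0 : ℤ))).decide.to_comp
      ((computable_cloTest hc).comp (Computable.fst.comp primrec_modelB.to_comp))
  · rw [Bool.and_eq_true, decide_eq_true_iff, cloTest_iff hS, SetLike.mem_coe, mem_tsub, ev_genB]
    exact and_congr (Iff.symm ofAdd_eq_one) Iff.rfl

theorem mem_dbl_tsub {S : Set ℤ} {r m : ℕ} (x : Base) :
    x ∈ dbl (tsub S) ((aff r m).range : Set Base) ↔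
      (m : ℤ) ∣ x.right.toAdd ∧ x.left * (ret (Set.range (affZ r m)) x.left)⁻¹ ∈ clo S := by
  rw [← exists_mul_iff]
  constructor
  · rintro ⟨_, ⟨a, ha, rfl⟩, h⟩
    obtain ⟨h1, h2⟩ := (mem_range_aff _).1 h
    exact ⟨by simpa using h1, a, ha, by simpa using h2⟩
  · rintro ⟨h1, a, ha, h2⟩
    exact ⟨_, ⟨a, ha, rfl⟩, (mem_range_aff _).2 ⟨by simpa using h1, by simpa using h2⟩⟩

theorem decIn_dbl_tsub {S : Set ℤ} {c : ℤ → Bool} (hc : Computable c)
    (hS : ∀ z, c z = true ↔ z ∈ S) {r m : ℕ} (h : r < m) :
    DecIn genB (dbl (tsub S) ((aff r m).range : Set Base)) := by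
  refine ⟨fun w => classTest 0 m (modelB w).2 && cloTest c ((modelB w).1 ++
    invW ((modelB w).1.filter fun a => classTest r m a.1)), ?_, fun w => ?_⟩
  · exact Primrec.and.to_comp.comp
      ((primrec_classTest 0 m).to_comp.comp (Computable.snd.comp primrec_modelB.to_comp))
      ((computable_cloTest hc).comp (Computable.list_append.comp
        (Computable.fst.comp primrec_modelB.to_comp) (primrec_invW.to_comp.comp
          ((computable_filter (primrec_classTest r m).to_comp).comp
            (Computable.fst.comp primrec_modelB.to_comp)))))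
  · rw [Bool.and_eq_true, classTest_iff (by omega), cloTest_iff hS, mem_dbl_tsub, ev_genB,
      ← FreeGroup.mul_mk, ret_mk _ (classTest_iff h), ← ev_of (invW _), ev_invW, ev_of]
    exact and_congr ⟨fun ⟨j, hj⟩ => ⟨j, by simpa [affZ] using hj.symm⟩,
      fun ⟨j, hj⟩ => ⟨j, by simpa [affZ] using hj.symm⟩⟩ Iff.rfl

end Vale.Agent.P193.Clapham
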