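import Mathlib

/-!
# Reduced forms in HNN extensions relative to an invariant subgroup

`V` is compatible with `φ` when `φ` maps `A ⊓ V` onto `B ⊓ V`.  Then `span φ V`, generated by `V`
and the stable letter, meets the base in `V`, and is the extension of `V` by the restricted map.
-/

namespace Vale.Agent.P193.Clapham

open HNNExtension

variable {G : Type} [Group G] {A B : Subgroup G} (φ : A ≃* B)

/-- The subgroup moved by `t` (for `true`) or by `t⁻¹` (for `false`). -/
def side (A B : Subgroup G) (b : Bool) : Subgroup G := cond b A B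

/-- `t` or its inverse. -/
def tp (b : Bool) : HNNExtension G A B φ := cond b t t⁻¹

open Classical in
/-- Conjugation by `tp b`, as a total function on the base. -/
noncomputable def move : Bool → G → G
  | true, x => if h : x ∈ A then φ ⟨x, h⟩ else 1
  | false, x => if h : x ∈ B then φ.symm ⟨x, h⟩ else 1

variable {φ}

theorem move_true {x : G} (h : x ∈ A) : move φ true x = φ ⟨x, h⟩ := by simp [move, h]

theorem move_false {x : G} (h : x ∈ B) : move φ false x = φ.symm ⟨x, h⟩ := by simp [move, h]

theorem move_mem {b : Bool} {x : G} (h : x ∈ side A B b) : move φ b x ∈ side A B (!b) := by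
  cases b
  · rw [move_false (show x ∈ B from h)]; exact SetLike.coe_mem _
  · rw [move_true (show x ∈ A from h)]; exact SetLike.coe_mem _

theorem move_move {b : Bool} {x : G} (h : x ∈ side A B b) :
    move φ (!b) (move φ b x) = x := by
  cases b
  · simp [move_false (show x ∈ B from h), move_true]
  · simp [move_true (show x ∈ A from h), move_false]

theorem move_mul {b : Bool} {x y : G} (hx : x ∈ side A B b) (hy : y ∈ side A B b) :
    move φ b (x * y) = move φ b x * move φ b y := by
  cases b
  · rw [move_false (show x ∈ B from hx), move_false (show y ∈ B from hy), move_false (mul_mem (show x ∈ B from hx) hy),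
      ← Subgroup.coe_mul, ← map_mul]
    rfl
  · rw [move_true (show x ∈ A from hx), move_true (show y ∈ A from hy), move_true (mul_mem (show x ∈ A from hx) hy),
      ← Subgroup.coe_mul, ← map_mul]
    rfl

theorem tp_mul_of {b : Bool} {x : G} (h : x ∈ side A B b) :
    tp φ b * of x = of (move φ b x) * tp φ b := by
  cases b
  · rw [move_false (show x ∈ B from h)]; exact inv_t_mul_of (φ := φ) ⟨x, h⟩
  · rw [move_true (show x ∈ A from h)]; exact t_mul_of (φ := φ) ⟨x, h⟩

theorem tp_not (b : Bool) : tp φ (!b) = (tp φ b)⁻¹ := by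
  cases b <;> simp [tp]

/-- The value of a head followed by a list of syllables. -/
def val (φ : A ≃* B) : G → List (Bool × G) → HNNExtension G A B φ
  | h, [] => of h
  | h, (b, g) :: l => of h * tp φ b * val φ g l

/-- No pinches. -/
def Red (A B : Subgroup G) (l : List (Bool × G)) : Prop :=
  l.IsChain fun a b => a.2 ∈ side A B a.1 → a.1 = b.1

theorem val_mul (x h : G) (l : List (Bool × G)) : val φ (x * h) l = of x * val φ h l := by
  cases l <;> simp [val, mul_assoc]

/-- The sign as a unit. -/
def sgn (b : Bool) : ℤˣ := cond b 1 (-1)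

theorem toSubgroup_sgn (b : Bool) : toSubgroup A B (sgn b) = side A B b := by
  cases b <;> rfl

theorem sgn_injective : Function.Injective sgn := by
  intro a b h
  cases a <;> cases b <;> simp_all [sgn]

theorem exists_reducedWord {l : List (Bool × G)} (hl : Red A B l) (h : G) :
    ∃ w : NormalWord.ReducedWord G A B, w.head = h ∧
      w.toList = l.map (fun x => (sgn x.1, x.2)) ∧ w.prod φ = val φ h l := by
  suffices hp : ∀ (l : List (Bool × G)) (h : G),
      of h * ((l.map fun x => (sgn x.1, x.2)).map
        fun x => t ^ (x.1 : ℤ) * (of x.2 : HNNExtension G A B φ)).prod = val φ h l by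
    have hc : (l.map fun x => (sgn x.1, x.2)).IsChain
        (fun a b => a.2 ∈ toSubgroup A B a.1 → a.1 = b.1) := by
      rw [List.isChain_map]
      exact hl.imp fun a b hab hm => by
        rw [toSubgroup_sgn] at hm
        exact congrArg sgn (hab hm)
    exact ⟨⟨h, _, hc⟩, rfl, rfl, hp l h⟩
  intro l h
  induction l generalizing h with
    | nil => simp [val]
    | cons a l ih =>
      obtain ⟨b, g⟩ := a
      simp only [List.map_cons, List.prod_cons, val, ← ih, mul_assoc]
      cases b <;> simp [tp, sgn]

/-- Britton: equal values of reduced forms have the same signs and congruent heads. -/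
theorem val_eq {h v : G} {l m : List (Bool × G)} (hl : Red A B l) (hm : Red A B m)
    (e : val φ h l = val φ v m) :
    l.map Prod.fst = m.map Prod.fst ∧
      ∀ b g l', l = (b, g) :: l' → h⁻¹ * v ∈ side A B (!b) := by
  obtain ⟨w₁, h1, l1, p1⟩ := exists_reducedWord (φ := φ) hl h
  obtain ⟨w₂, h2, l2, p2⟩ := exists_reducedWord (φ := φ) hm v
  obtain ⟨hs, hh⟩ := ReducedWord.map_fst_eq_and_of_prod_eq φ (w₁ := w₁) (w₂ := w₂)
    (by rw [p1, p2, e])
  rw [l1, l2, List.map_map, List.map_map] at hs
  constructor
  · apply List.map_injective_iff.2 sgn_injective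
    simpa [List.map_map, Function.comp_def] using hs
  · rintro b g l' rfl
    have := hh (sgn b) (by simp [l1])
    rw [h1, h2] at this
    cases b
    · simpa [sgn, side] using this
    · simpa [sgn, side] using this

theorem eq_nil_of_val_eq_of {h x : G} {l : List (Bool × G)} (hl : Red A B l)
    (e : val φ h l = of x) : l = [] ∧ h = x := by
  have h0 : Red A B [] := List.isChain_nil
  have := (val_eq hl h0 (e.trans (show of x = val φ x [] from rfl))).1
  obtain rfl : l = [] := by simpa using this
  exact ⟨rfl, HNNExtension.of_injective (φ := φ) e⟩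

open Classical in
/-- Multiply a reduced form on the left by `tp b`. -/
noncomputable def pre (φ : A ≃* B) (b : Bool) : G × List (Bool × G) → G × List (Bool × G)
  | (h, []) => (1, [(b, h)])
  | (h, (b', g) :: l) =>
    if b ≠ b' ∧ h ∈ side A B b then (move φ b h * g, l) else (1, (b, h) :: (b', g) :: l)

theorem val_pre (b : Bool) (s : G × List (Bool × G)) :
    val φ (pre φ b s).1 (pre φ b s).2 = tp φ b * val φ s.1 s.2 := by
  obtain ⟨h, _ | ⟨⟨b', g⟩, l⟩⟩ := s
  · simp [pre, val]
  · by_cases hc : b ≠ b' ∧ h ∈ side A B b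
    · obtain rfl : b' = !b := by cases b <;> cases b' <;> simp_all
      simp only [pre, if_pos hc, val, val_mul, tp_not]
      rw [← mul_assoc, ← mul_assoc, tp_mul_of hc.2, mul_inv_cancel_right]
    · simp [pre, if_neg hc, val]

theorem red_pre (b : Bool) (s : G × List (Bool × G)) (hs : Red A B s.2) :
    Red A B (pre φ b s).2 := by
  obtain ⟨h, _ | ⟨⟨b', g⟩, l⟩⟩ := s
  · exact List.isChain_singleton _
  · by_cases hc : b ≠ b' ∧ h ∈ side A B b
    · simp only [pre, if_pos hc]
      exact (List.isChain_cons.1 hs).2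
    · simp only [pre, if_neg hc]
      exact List.isChain_cons_cons.2 ⟨fun hm => by_contra fun hne => hc ⟨hne, hm⟩, hs⟩

variable (φ)

/-- `V` is preserved by the stable letter in both directions. -/
def Compat (V : Subgroup G) : Prop :=
  ∀ b, ∀ x ∈ V, x ∈ side A B b → move φ b x ∈ V

/-- The subgroup generated by `V` and the stable letter. -/
def span (V : Subgroup G) : Subgroup (HNNExtension G A B φ) :=
  Subgroup.closure (of '' (V : Set G) ∪ {t})

variable {φ}

theorem of_mem_span {V : Subgroup G} {x : G} (h : x ∈ V) : (of x) ∈ span φ V :=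
  Subgroup.subset_closure (Or.inl ⟨x, h, rfl⟩)

theorem tp_mem_span (V : Subgroup G) (b : Bool) : tp φ b ∈ span φ V := by
  have : (t : HNNExtension G A B φ) ∈ span φ V := Subgroup.subset_closure (Or.inr rfl)
  cases b
  · exact inv_mem this
  · exact this

/-- All entries of a reduced form lie in `V`. -/
def AllIn (V : Subgroup G) (h : G) (l : List (Bool × G)) : Prop :=
  h ∈ V ∧ ∀ p ∈ l, p.2 ∈ V

theorem allIn_pre {V : Subgroup G} (hV : Compat φ V) (b : Bool) (s : G × List (Bool × G))
    (hs : AllIn V s.1 s.2) : AllIn V (pre φ b s).1 (pre φ b s).2 := by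
  obtain ⟨h, _ | ⟨⟨b', g⟩, l⟩⟩ := s
  · exact ⟨one_mem V, by simpa [pre] using hs.1⟩
  · by_cases hc : b ≠ b' ∧ h ∈ side A B b
    · simp only [pre, if_pos hc]
      exact ⟨mul_mem (hV b h hs.1 hc.2) (hs.2 _ List.mem_cons_self),
        fun p hp => hs.2 p (List.mem_cons_of_mem _ hp)⟩
    · simp only [pre, if_neg hc]
      refine ⟨one_mem V, fun p hp => ?_⟩
      rcases List.mem_cons.1 hp with rfl | hp
      · exact hs.1
      · exact hs.2 p hp

theorem exists_red_of_mem_span {V : Subgroup G} (hV : Compat φ V) {x : HNNExtension G A B φ}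
    (hx : x ∈ span φ V) : ∃ h l, Red A B l ∧ AllIn V h l ∧ val φ h l = x := by
  induction hx using Subgroup.closure_induction_left with
  | one => exact ⟨1, [], List.isChain_nil, ⟨one_mem V, by simp⟩, map_one _⟩
  | mul_left y hy z _ ih =>
    obtain ⟨h, l, hl, hin, rfl⟩ := ih
    rcases hy with ⟨v, hv, rfl⟩ | rfl
    · exact ⟨v * h, l, hl, ⟨mul_mem hv hin.1, hin.2⟩, val_mul v h l⟩
    · exact ⟨_, _, red_pre true (h, l) hl, allIn_pre hV true (h, l) hin, val_pre true (h, l)⟩
  | inv_mul_cancel y hy z _ ih =>
    obtain ⟨h, l, hl, hin, rfl⟩ := ih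
    rcases hy with ⟨v, hv, rfl⟩ | rfl
    · exact ⟨v⁻¹ * h, l, hl, ⟨mul_mem (inv_mem hv) hin.1, hin.2⟩, by
        rw [val_mul, map_inv]⟩
    · exact ⟨_, _, red_pre false (h, l) hl, allIn_pre hV false (h, l) hin, val_pre false (h, l)⟩

theorem mem_of_of_mem_span {V : Subgroup G} (hV : Compat φ V) {x : G}
    (hx : (of x : HNNExtension G A B φ) ∈ span φ V) : x ∈ V := by
  obtain ⟨h, l, hl, hin, e⟩ := exists_red_of_mem_span hV hx
  exact (eq_nil_of_val_eq_of hl e).2 ▸ hin.1

theorem compat_top : Compat φ ⊤ := fun _ _ _ _ => Subgroup.mem_top _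

theorem span_top : span φ ⊤ = ⊤ := by
  refine (Subgroup.eq_top_iff' _).2 fun x => ?_
  induction x using HNNExtension.induction_on with
  | of g => exact of_mem_span (Subgroup.mem_top g)
  | t => exact tp_mem_span ⊤ true
  | mul x y hx hy => exact mul_mem hx hy
  | inv x hx => exact inv_mem hx

/-- A map on `V` compatible with the stable letter extends to the span of `V`. -/
theorem exists_hom_span {V : Subgroup G} (hV : Compat φ V) {W : Type} [Group W] (σ : V →* W)
    (y : W)
    (hy : ∀ (x : G) (hx : x ∈ V) (hA : x ∈ side A B true),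
      y * σ ⟨x, hx⟩ = σ ⟨move φ true x, hV true x hx hA⟩ * y) :
    ∃ ρ : span φ V →* W,
      (∀ (x : G) (hx : x ∈ V), ρ ⟨of x, of_mem_span hx⟩ = σ ⟨x, hx⟩) ∧
        ρ ⟨tp φ true, tp_mem_span V true⟩ = y := by
  let ψ : A.subgroupOf V ≃* B.subgroupOf V :=
    { toFun := fun a => ⟨⟨move φ true a.1.1, hV true _ a.1.2 a.2⟩,
        show move φ true a.1.1 ∈ B from move_mem (b := true) a.2⟩
      invFun := fun a => ⟨⟨move φ false a.1.1, hV false _ a.1.2 a.2⟩,
        show move φ false a.1.1 ∈ A from move_mem (b := false) a.2⟩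
      left_inv := fun a => Subtype.ext (Subtype.ext (move_move (b := true) a.2))
      right_inv := fun a => Subtype.ext (Subtype.ext (move_move (b := false) a.2))
      map_mul' := fun a b => Subtype.ext (Subtype.ext (move_mul (b := true) a.2 b.2)) }
  let ι : HNNExtension V (A.subgroupOf V) (B.subgroupOf V) ψ →* HNNExtension G A B φ :=
    HNNExtension.lift (of.comp V.subtype) t fun a => by
      exact tp_mul_of (φ := φ) (b := true) (x := a.1.1) a.2
  have ι_of : ∀ g : V, ι (of g) = of (g : G) := fun g => lift_of _ _ _ g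
  have ι_t : ι t = t := lift_t _ _ _
  have hι : ∀ h l, ι (val ψ h l) = val φ (h : G) (l.map fun p => (p.1, (p.2 : G))) := by
    intro h l
    induction l generalizing h with
    | nil => exact ι_of h
    | cons a l ih =>
      obtain ⟨b, g⟩ := a
      simp only [val, List.map_cons, map_mul, ih]
      cases b <;> simp [ι_of, ι_t, tp]
  have hinj : Function.Injective ι := by
    refine (injective_iff_map_eq_one ι).2 fun x hx => ?_
    obtain ⟨h, l, hl, -, rfl⟩ := exists_red_of_mem_span (compat_top (φ := ψ))
      (show x ∈ span ψ ⊤ by rw [span_top]; exact Subgroup.mem_top x)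
    rw [hι, ← map_one (of : G →* HNNExtension G A B φ)] at hx
    have hred : Red A B (l.map fun p => (p.1, (p.2 : G))) := by
      rw [Red, List.isChain_map]
      refine hl.imp fun a b hab hm => hab ?_
      obtain ⟨a, g⟩ := a
      cases a <;> exact hm
    obtain ⟨h1, h2⟩ := eq_nil_of_val_eq_of hred hx
    obtain rfl : l = [] := by simpa using h1
    rw [show val ψ h [] = of h from rfl, show h = 1 from Subtype.ext h2, map_one]
  have hrange : ι.range = span φ V := by
    refine le_antisymm ?_ ((Subgroup.closure_le _).2 ?_)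
    · rintro _ ⟨x, rfl⟩
      induction x using HNNExtension.induction_on with
      | of g => rw [ι_of]; exact of_mem_span g.2
      | t => rw [ι_t]; exact tp_mem_span V true
      | mul x y hx hy => rw [map_mul]; exact mul_mem hx hy
      | inv x hx => rw [map_inv]; exact inv_mem hx
    · rintro z (⟨v, hv, rfl⟩ | rfl)
      · exact ⟨of ⟨v, hv⟩, ι_of ⟨v, hv⟩⟩
      · exact ⟨t, ι_t⟩
  let e := (MonoidHom.ofInjective hinj).trans (MulEquiv.subgroupCongr hrange)
  let r : HNNExtension V (A.subgroupOf V) (B.subgroupOf V) ψ →* W :=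
    HNNExtension.lift σ y fun a => hy a.1.1 a.1.2 a.2
  refine ⟨r.comp e.symm.toMonoidHom, fun x hx => ?_, ?_⟩
  · have : e.symm ⟨of x, of_mem_span hx⟩ = of ⟨x, hx⟩ :=
      e.symm_apply_eq.2 (Subtype.ext (ι_of ⟨x, hx⟩).symm)
    simp [this, r]
  · have : e.symm ⟨tp φ true, tp_mem_span V true⟩ = t :=
      e.symm_apply_eq.2 (Subtype.ext ι_t.symm)
    simp [this, r]

end Vale.Agent.P193.Clapham
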