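import Vale.Agent.P193.Clapham.Words
import Vale.Agent.P193.Clapham.Reduced

/-!
# Britton's algorithm

For computable associated data: membership in the base, the word problem, and membership in
`span φ V * X` for a compatible `V` and a subset `X` of the base are computable.
-/

namespace Vale.Agent.P193.Clapham

open HNNExtension

variable {α : Type} [Primcodable α] {G : Type} [Group G] {A B : Subgroup G} (φ : A ≃* B)

/-- The generators of the extension. -/
def genT (g : α → G) : Option α → HNNExtension G A B φ
  | none => t
  | some a => of (g a)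

/-- The computable data of one stable letter. -/
structure Data (g : α → G) : Prop where
  gen : Gen g
  wp : DecWP g
  mem : ∀ b, DecIn g (side A B b : Set G)
  move_word : ∀ b, ∃ f : Wd α → Wd α, Computable f ∧
    ∀ w, ev g w ∈ side A B b → ev g (f w) = move φ b (ev g w)

variable {φ}

/-- Products of an element of `V` with an element of `X`. -/
def dbl (V : Subgroup G) (X : Set G) : Set G := {x | ∃ v ∈ V, v⁻¹ * x ∈ X}

theorem dbl_mul_left {V : Subgroup G} {X : Set G} {v x : G} (hv : v ∈ V) :
    v * x ∈ dbl V X ↔ x ∈ dbl V X := by
  constructor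
  · rintro ⟨w, hw, h⟩
    exact ⟨v⁻¹ * w, mul_mem (inv_mem hv) hw, by simpa [mul_assoc] using h⟩
  · rintro ⟨w, hw, h⟩
    exact ⟨v * w, mul_mem hv hw, by simpa [mul_assoc] using h⟩

theorem gen_genT {g : α → G} (hg : Gen g) : Gen (genT φ g) := by
  intro x
  induction x using HNNExtension.induction_on with
  | of y =>
    obtain ⟨w, rfl⟩ := hg y
    exact ⟨w.map fun a => (some a.1, a.2), by
      induction w with
      | nil => simp
      | cons a w ih => obtain ⟨a, c⟩ := a; cases c <;> simp [evL, genT, ih]⟩
  | t => exact ⟨[(none, true)], ev_single _ _⟩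
  | mul x y hx hy =>
    obtain ⟨v, rfl⟩ := hx
    obtain ⟨w, rfl⟩ := hy
    exact ⟨v ++ w, ev_append _ _ _⟩
  | inv x hx =>
    obtain ⟨v, rfl⟩ := hx
    exact ⟨invW v, ev_invW _ _⟩

/-- A head word and syllables. -/
abbrev State (α : Type) : Type := Wd α × List (Bool × Wd α)

variable (d : Bool → Wd α → Bool) (f : Bool → Wd α → Wd α)

/-- Whether the first syllable has the opposite sign, and its word. -/
def firstW (b : Bool) (l : List (Bool × Wd α)) : Bool × Wd α :=
  Option.casesOn (motive := fun _ => Bool × Wd α) l.head? (false, [])
    fun p => (xor b p.1, p.2)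

/-- Prepend a stable letter, pinching if the test says so. -/
def preW (b : Bool) (s : State α) : State α :=
  bif ((firstW b s.2).1 && d b s.1) then (f b s.1 ++ (firstW b s.2).2, s.2.tail)
  else ([], (b, s.1) :: s.2)

/-- Put a base letter in front of the head. -/
def pushW (s : State α) (a : α × Bool) : State α := (a :: s.1, s.2)

/-- Act by a letter of either kind. -/
def optStep {σ τ : Type} (u : Bool → σ → σ) (v : σ → τ × Bool → σ) (s : σ) (a : Option τ × Bool) :
    σ :=
  Option.casesOn (motive := fun _ => σ) a.1 (u a.2 s) fun y => v s (y, a.2)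

/-- Prepend a letter. -/
def stepW : State α → Option α × Bool → State α := optStep (preW d f) pushW

/-- The reduced form of a word. -/
def normW (w : Wd (Option α)) : State α := w.reverse.foldl (stepW d f) ([], [])

theorem primrec_firstW : Primrec₂ (firstW : Bool → List (Bool × Wd α) → Bool × Wd α) :=
  Primrec.to₂ <| Primrec.option_casesOn (Primrec.list_head?.comp Primrec.snd) (.const (false, []))
    (Primrec.to₂ <| Primrec.pair
      ((Primrec.dom_finite fun p : Bool × Bool => xor p.1 p.2).comp
        ((Primrec.fst.comp Primrec.fst).pair (Primrec.fst.comp Primrec.snd)))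
      (Primrec.snd.comp Primrec.snd))

theorem computable_preW (hd : Computable₂ d) (hf : Computable₂ f) :
    Computable₂ (preW d f) := by
  have hb : Computable fun x : Bool × State α => x.1 := Computable.fst
  have hh : Computable fun x : Bool × State α => x.2.1 := Computable.fst.comp Computable.snd
  have hl : Computable fun x : Bool × State α => x.2.2 := Computable.snd.comp Computable.snd
  have hfirst := (primrec_firstW (α := α)).to_comp.comp hb hl
  exact Computable.to₂ <| Computable.cond
    (Primrec.and.to_comp.comp (Computable.fst.comp hfirst) (hd.comp hb hh))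
    ((Computable.list_append.comp (hf.comp hb hh) (Computable.snd.comp hfirst)).pair
      (Primrec.list_tail.to_comp.comp hl))
    ((Computable.const []).pair (Computable.list_cons.comp (hb.pair hh) hl))

theorem computable_pushW : Computable₂ (pushW (α := α)) :=
  Computable.to₂ (Computable.pair
    (Computable.list_cons.comp Computable.snd (Computable.fst.comp Computable.fst))
    (Computable.snd.comp Computable.fst))

theorem computable_optionStep {σ τ : Type} [Primcodable σ] [Primcodable τ] {u : Bool → σ → σ}
    {v : σ → τ × Bool → σ} (hu : Computable₂ u) (hv : Computable₂ v) :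
    Computable₂ (optStep u v) := by
  have ha : Computable fun x : σ × (Option τ × Bool) => x.2.1 :=
    Computable.fst.comp Computable.snd
  have hb : Computable fun x : σ × (Option τ × Bool) => x.2.2 :=
    Computable.snd.comp Computable.snd
  have h1 : Computable fun x : σ × (Option τ × Bool) => u x.2.2 x.1 := hu.comp hb Computable.fst
  have h2 : Computable₂ fun (x : σ × (Option τ × Bool)) (y : τ) => v x.1 (y, x.2.2) :=
    Computable.to₂ (hv.comp (Computable.fst.comp Computable.fst)
      (Computable.snd.pair (hb.comp Computable.fst)))
  exact Computable.option_casesOn ha h1 h2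

theorem computable_stepW (hd : Computable₂ d) (hf : Computable₂ f) :
    Computable₂ (stepW d f) :=
  computable_optionStep (computable_preW d f hd hf) computable_pushW

theorem computable_normW (hd : Computable₂ d) (hf : Computable₂ f) : Computable (normW d f) :=
  computable_foldl Computable.list_reverse (Computable.const ([], []))
    (computable_stepW d f hd hf)

theorem computable₂_bool {β γ : Type} [Primcodable β] [Primcodable γ] {k : Bool → β → γ}
    (h : ∀ b, Computable (k b)) : Computable₂ k :=
  Computable.of_eq (f := fun x : Bool × β => bif x.1 then k true x.2 else k false x.2)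
    (Computable.cond Computable.fst ((h true).comp Computable.snd) ((h false).comp Computable.snd))
    fun x => by obtain ⟨_ | _, w⟩ := x <;> rfl

/-- Evaluate the syllables. -/
def evS (g : α → G) (l : List (Bool × Wd α)) : List (Bool × G) :=
  l.map fun p => (p.1, ev g p.2)

variable (g : α → G)

theorem normW_spec (hd : ∀ b w, d b w = true ↔ ev g w ∈ side A B b)
    (hf : ∀ b w, ev g w ∈ side A B b → ev g (f b w) = move φ b (ev g w))
    (w : Wd (Option α)) :
    Red A B (evS g (normW d f w).2) ∧
      val φ (ev g (normW d f w).1) (evS g (normW d f w).2) = ev (genT φ g) w := by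
  induction w with
  | nil => exact ⟨List.isChain_nil, by simp [normW, evS, val]⟩
  | cons a w ih =>
    have e : normW d f (a :: w) = stepW d f (normW d f w) a := by simp [normW]
    rw [e, ev_cons, ← ih.2]
    obtain ⟨⟨h, l⟩, -⟩ : ∃ s, s = normW d f w := ⟨_, rfl⟩
    generalize normW d f w = s at ih ⊢
    obtain ⟨h, l⟩ := s
    obtain ⟨_ | x, b⟩ := a
    · have key : (ev g (preW d f b (h, l)).1, evS g (preW d f b (h, l)).2) =
          pre φ b (ev g h, evS g l) := by
        rcases l with - | ⟨⟨b', v⟩, l⟩
        · simp [preW, firstW, evS, pre]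
        · by_cases hc : b ≠ b' ∧ ev g h ∈ side A B b
          · have : (xor b b' && d b h) = true := by
              simp only [Bool.and_eq_true, (hd b h).2 hc.2, and_true]
              cases b <;> cases b' <;> simp_all
            simp [preW, firstW, evS, pre, this, hc, hf b h hc.2]
          · have : (xor b b' && d b h) = false := by
              by_contra hne
              rw [Bool.not_eq_false, Bool.and_eq_true, hd] at hne
              exact hc ⟨by intro hbb; subst hbb; simp at hne, hne.2⟩
            simp [preW, firstW, evS, pre, this, if_neg hc]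
      have k1 := congrArg Prod.fst key
      have k2 := congrArg Prod.snd key
      simp only [stepW, optStep] at k1 k2 ⊢
      rw [k1, k2]
      refine ⟨red_pre b _ ih.1, ?_⟩
      rw [val_pre]
      cases b <;> simp [evL, genT, tp]
    · refine ⟨ih.1, ?_⟩
      simp only [stepW, optStep, pushW, ev_cons, val_mul]
      cases b <;> simp [evL, genT]

variable {g}

theorem Data.choose_fun (D : Data φ g) :
    ∃ (d : Bool → Wd α → Bool) (f : Bool → Wd α → Wd α), Computable₂ d ∧ Computable₂ f ∧
      (∀ b w, d b w = true ↔ ev g w ∈ side A B b) ∧
      ∀ b w, ev g w ∈ side A B b → ev g (f b w) = move φ b (ev g w) := by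
  choose d hd hds using D.mem
  choose f hf hfs using D.move_word
  exact ⟨d, f, computable₂_bool hd, computable₂_bool hf, hds, hfs⟩

theorem decIn_of_image (D : Data φ g) {S : Set G} (hS : DecIn g S) :
    DecIn (genT φ g) (HNNExtension.of '' S) := by
  obtain ⟨d, f, hd, hf, hds, hfs⟩ := D.choose_fun
  obtain ⟨e, he, hes⟩ := hS
  refine ⟨fun w => decide ((normW d f w).2.length = 0) && e (normW d f w).1, ?_, fun w => ?_⟩
  · exact Primrec.and.to_comp.comp
      ((Primrec.eq.comp Primrec.list_length (.const 0)).decide.to_comp.comp
        (Computable.snd.comp (computable_normW d f hd hf)))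
      (he.comp (Computable.fst.comp (computable_normW d f hd hf)))
  · obtain ⟨hr, hv⟩ := normW_spec d f g hds hfs w
    rw [Bool.and_eq_true, decide_eq_true_iff, hes, ← hv]
    constructor
    · rintro ⟨hl, hm⟩
      rw [List.eq_nil_of_length_eq_zero hl]
      exact ⟨_, hm, rfl⟩
    · rintro ⟨x, hx, e⟩
      obtain ⟨h1, h2⟩ := eq_nil_of_val_eq_of hr e.symm
      exact ⟨by simpa [evS] using h1, h2 ▸ hx⟩

theorem decWP_genT (D : Data φ g) : DecWP (genT φ g) :=
  (decIn_of_image D D.wp).congr fun w => by simp

/-- The set `span φ V * X`. -/
def omega (φ : A ≃* B) (V : Subgroup G) (X : Set G) : Set (HNNExtension G A B φ) :=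
  {z | ∃ x ∈ X, z * (HNNExtension.of x)⁻¹ ∈ span φ V}

theorem omega_mul_left {V : Subgroup G} {X : Set G} {s z : HNNExtension G A B φ}
    (hs : s ∈ span φ V) : s * z ∈ omega φ V X ↔ z ∈ omega φ V X := by
  simp only [omega, Set.mem_ofPred_eq, mul_assoc, Subgroup.mul_mem_cancel_left _ hs]

theorem of_mem_omega {V : Subgroup G} (hV : Compat φ V) {X : Set G} {h : G} :
    (HNNExtension.of h : HNNExtension G A B φ) ∈ omega φ V X ↔ h ∈ dbl V X := by
  constructor
  · rintro ⟨x, hx, hm⟩
    rw [← map_inv, ← map_mul] at hm
    exact ⟨h * x⁻¹, mem_of_of_mem_span hV hm, by simpa using hx⟩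
  · rintro ⟨v, hv, hx⟩
    exact ⟨v⁻¹ * h, hx, by simpa using of_mem_span hv⟩

/-- Multiply the last entry on the right. -/
def mulLast (x : G) : G → List (Bool × G) → G × List (Bool × G)
  | h, [] => (h * x, [])
  | h, (b, g) :: l => (h, (b, (mulLast x g l).1) :: (mulLast x g l).2)

theorem val_mulLast (x h : G) (l : List (Bool × G)) :
    val φ (mulLast x h l).1 (mulLast x h l).2 = val φ h l * HNNExtension.of x := by
  induction l generalizing h with
  | nil => simp [mulLast, val]
  | cons a l ih => obtain ⟨b, y⟩ := a; simp [mulLast, val, ih, mul_assoc]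

theorem red_mulLast (x h : G) {l : List (Bool × G)} (hl : Red A B l) :
    Red A B (mulLast x h l).2 := by
  induction l generalizing h with
  | nil => exact List.isChain_nil
  | cons a l ih =>
    obtain ⟨b, y⟩ := a
    rcases l with - | ⟨⟨b', y'⟩, l⟩
    · exact List.isChain_singleton _
    · obtain ⟨h1, h2⟩ := List.isChain_cons_cons.1 hl
      exact List.isChain_cons_cons.2 ⟨h1, ih y h2⟩

/-- A nonempty reduced form in `span φ V * X` starts in `V * side`. -/
theorem head_mem_of_omega {V : Subgroup G} (hV : Compat φ V) {X : Set G} {h g' : G} {b : Bool}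
    {l : List (Bool × G)} (hl : Red A B ((b, g') :: l))
    (hm : val φ h ((b, g') :: l) ∈ omega φ V X) : h ∈ dbl V (side A B (!b) : Set G) := by
  obtain ⟨x, -, hs⟩ := hm
  obtain ⟨v, m, hmr, hin, e⟩ := exists_red_of_mem_span hV hs
  have e' : val φ h ((b, g') :: l) = val φ (mulLast x v m).1 (mulLast x v m).2 := by
    rw [val_mulLast, e, inv_mul_cancel_right]
  obtain ⟨h1, h2⟩ := val_eq hl (red_mulLast x v hmr) e'
  have h3 := h2 b g' l rfl
  rcases m with - | ⟨⟨b', y⟩, m⟩
  · simp [mulLast] at h1
  · exact ⟨v, hin.1, by simpa [mulLast] using inv_mem h3⟩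

/-- Membership in `span φ V * X` is computable. -/
theorem decIn_omega (D : Data φ g) {V : Subgroup G} (hV : Compat φ V)
    (hdV : DecIn g (V : Set G)) (hcos : ∀ b, DecIn g (dbl V (side A B b : Set G))) {X : Set G}
    (hX : DecIn g (dbl V X)) : DecIn (genT φ g) (omega φ V X) := by
  obtain ⟨d, f, hd, hf, hds, hfs⟩ := D.choose_fun
  obtain ⟨dV, hdV, hdVs⟩ := hdV
  choose dc hdc hdcs using hcos
  obtain ⟨eX, heX, heXs⟩ := hX
  have hdc₂ : Computable₂ dc := computable₂_bool hdc
  have hp : Computable₂ fun (x : Bool × Wd α) (v : Wd α) =>
      !dc x.1 x.2 || (dV v && d x.1 (invW v ++ x.2)) :=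
    Computable.to₂ <| Primrec.or.to_comp.comp
      (Primrec.not.to_comp.comp
        (hdc₂.comp (Computable.fst.comp Computable.fst) (Computable.snd.comp Computable.fst)))
      (Primrec.and.to_comp.comp (hdV.comp Computable.snd)
        (hd.comp (Computable.fst.comp Computable.fst)
          (Computable.list_append.comp (primrec_invW.to_comp.comp Computable.snd)
            (Computable.snd.comp Computable.fst))))
  obtain ⟨wit, hwit, hwits⟩ := computable_search hp fun x => by
    by_cases hx : ev g x.2 ∈ dbl V (side A B x.1 : Set G)
    · obtain ⟨v, hv, hvx⟩ := hx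
      obtain ⟨u, rfl⟩ := D.gen v
      exact ⟨u, by simp [(hdVs u).2 hv, (hds x.1 (invW u ++ x.2)).2 (by simpa using hvx)]⟩
    · exact ⟨[], by simp [Bool.eq_false_iff.2 (mt (hdcs x.1 x.2).1 hx)]⟩
  let stp : Option (Wd α) → Bool × Wd α → Option (Wd α) := fun o p => o.bind fun h =>
    bif dc (!p.1) h then some (f (!p.1) (invW (wit (!p.1, h)) ++ h) ++ p.2) else none
  let test : Wd α → List (Bool × Wd α) → Bool := fun h l =>
    Option.casesOn (motive := fun _ => Bool) (l.foldl stp (some h)) false eX
  have htest : ∀ (l : List (Bool × Wd α)) (h : Wd α), Red A B (evS g l) →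
      (test h l = true ↔ val φ (ev g h) (evS g l) ∈ omega φ V X) := by
    intro l
    induction l with
    | nil =>
      intro h _
      simp [test, evS, val, of_mem_omega hV, heXs]
    | cons p l ih =>
      intro h hl
      obtain ⟨b, y⟩ := p
      have hnone : l.foldl stp none = none := by
        clear ih hl
        induction l with
        | nil => rfl
        | cons q l ih => exact ih
      by_cases hc : dc (!b) h = true
      · have hw := hwits (!b, h)
        simp only [hc, Bool.not_true, Bool.false_or, Bool.and_eq_true, hdVs, hds, ev_append,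
          ev_invW] at hw
        set a := (ev g (wit (!b, h)))⁻¹ * ev g h with ha
        have hstep : test h ((b, y) :: l) =
            test (f (!b) (invW (wit (!b, h)) ++ h) ++ y) l := by
          simp [test, stp, hc]
        have hfa : ev g (f (!b) (invW (wit (!b, h)) ++ h)) = move φ (!b) a := by
          rw [hfs _ _ (by simpa [← ha] using hw.2)]; simp [← ha]
        rw [hstep, ih _ (List.isChain_cons.1 hl).2, ev_append, hfa]
        have e1 : tp φ b * HNNExtension.of (move φ (!b) a) = HNNExtension.of a * tp φ b := by
          have := tp_mul_of (φ := φ) (b := b) (x := move φ (!b) a)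
            (by simpa using move_mem (φ := φ) hw.2)
          rwa [show move φ b (move φ (!b) a) = a by simpa using move_move (φ := φ) hw.2] at this
        have e2 : val φ (ev g h) (evS g ((b, y) :: l)) =
            (HNNExtension.of (ev g (wit (!b, h))) * tp φ b) *
              val φ (move φ (!b) a * ev g y) (evS g l) := by
          rw [val_mul, mul_assoc, ← mul_assoc (tp φ b), e1, ha, map_mul, map_inv]
          simp [evS, val, mul_assoc]
        rw [e2, omega_mul_left (mul_mem (of_mem_span hw.1) (tp_mem_span V b))]
      · have hf' : test h ((b, y) :: l) = false := by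
          simp [test, stp, Bool.eq_false_iff.2 hc, hnone]
        rw [hf']
        exact iff_of_false Bool.false_ne_true fun hm =>
          hc ((hdcs _ _).2 (head_mem_of_omega hV hl hm))
  refine ⟨fun w => test (normW d f w).1 (normW d f w).2, ?_, fun w => ?_⟩
  · have hstp : Computable₂ stp := by
      have hnb : Computable fun x : (Option (Wd α) × (Bool × Wd α)) × Wd α => !x.1.2.1 :=
        Primrec.not.to_comp.comp (Computable.fst.comp (Computable.snd.comp Computable.fst))
      refine Computable.option_bind (f := fun x : Option (Wd α) × (Bool × Wd α) => x.1)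
        (g := fun (x : Option (Wd α) × (Bool × Wd α)) h =>
          bif dc (!x.2.1) h then some (f (!x.2.1) (invW (wit (!x.2.1, h)) ++ h) ++ x.2.2) else none)
        Computable.fst ?_
      exact Computable.cond (hdc₂.comp hnb Computable.snd)
        (Computable.option_some.comp (Computable.list_append.comp
          (hf.comp hnb (Computable.list_append.comp
            (primrec_invW.to_comp.comp (hwit.comp (hnb.pair Computable.snd))) Computable.snd))
          (Computable.snd.comp (Computable.snd.comp Computable.fst))))
        (Computable.const none)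
    have hfold : Computable fun w => (normW d f w).2.foldl stp (some (normW d f w).1) :=
      computable_foldl (Computable.snd.comp (computable_normW d f hd hf))
        (Computable.option_some.comp (Computable.fst.comp (computable_normW d f hd hf))) hstp
    exact Computable.option_casesOn hfold (Computable.const false)
      (Computable.to₂ (heX.comp Computable.snd))
  · obtain ⟨hr, hv⟩ := normW_spec d f g hds hfs w
    rw [htest _ _ hr, hv]

end Vale.Agent.P193.Clapham
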