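import Mathlib
import Vale.Agent.P193.Defs

/-!
# Clapham's theorem: interface of the machine layer

The theorem (`BH.ClaphamStatement`): a finitely generated group with decidable word problem embeds
in an infinite finitely presented group with decidable word problem.

Proof plan.  `B = ⟨x, t⟩` is free and `t z = x⁻ᶻ t xᶻ`.  An `Aff` gives an isomorphism
`⟨t r, xᵐ⟩ ≃ ⟨t s, xⁿ⟩` of free subgroups, hence a stable letter over `B`; the tower `K` of these is
finitely presented.  For `L = ⟨t z₀, t z₁, letters⟩` one has `L ∩ B = ⟨t z : V z ≠ none⟩`, and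
`t z ↦ d * g (decode (V z))`, `letter ↦ f i` defines `ρ : L →* W`, where
`W = ⟨d, G × F | d (g, f) d⁻¹ = f on the graph of F → G⟩`.  The single extension of `K × W`
conjugating `(l, 1)` to `(l, ρ l)` is finitely presented and contains `G`.

`MachineStatement` is all that is needed about computation.
-/

namespace Vale.Agent.P193.Clapham

/-- An affine bijection `r + m j ↦ s + n j` between two residue classes. -/
structure Aff where
  r : ℕ
  m : ℕ
  s : ℕ
  n : ℕ
  hr : r < m
  hs : s < n

/-- The source with parameter `j`. -/
def Aff.src (a : Aff) (j : ℕ) : ℕ := a.r + a.m * j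

/-- The target with parameter `j`. -/
def Aff.tgt (a : Aff) (j : ℕ) : ℕ := a.s + a.n * j

/-- Bijective numeration in base `k` of a word over `Fin k`, first letter lowest. -/
def code {k : ℕ} (w : List (Fin k)) : ℕ := w.foldr (fun i c => k * c + i + 1) 0

/-- A table of maps, each either plain or appending a letter. -/
abbrev Table (k : ℕ) : Type := List (Aff × Option (Fin k))

/-- Connectedness in the graph of a table, recording the appended letters. -/
inductive Conn {k : ℕ} (tbl : Table k) (a : ℕ) : ℕ → List (Fin k) → Prop
  | base : Conn tbl a a []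
  | fwd {e : Aff} {j : ℕ} {w : List (Fin k)} :
      (e, none) ∈ tbl → Conn tbl a (e.src j) w → Conn tbl a (e.tgt j) w
  | bwd {e : Aff} {j : ℕ} {w : List (Fin k)} :
      (e, none) ∈ tbl → Conn tbl a (e.tgt j) w → Conn tbl a (e.src j) w
  | push {e : Aff} {j : ℕ} {i : Fin k} {w : List (Fin k)} :
      (e, some i) ∈ tbl → Conn tbl a (e.src j) w → Conn tbl a (e.tgt j) (i :: w)

/-- How a map may change the label of a point: plain maps keep it or send an accepted one to `0`,
appending maps append. -/
def LabelRel {k : ℕ} (dec : ℕ → Bool) : Option (Fin k) → Option ℕ → Option ℕ → Prop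
  | _, none, v => v = none
  | none, some c, v => v = some c ∨ (dec c = true ∧ v = some 0)
  | some i, some c, v => v = some (k * c + i + 1)

/-- A table that simulates the predicate `dec` on codes of words.  `V` labels the component of the
two seeds `z₀`, `z₁`. -/
structure Machine (k : ℕ) (dec : ℕ → Bool) where
  tbl : Table k
  z₀ : ℕ
  z₁ : ℕ
  V : ℕ → Option ℕ
  computable_dom : ComputablePred fun z => (V z).isSome = true
  label₀ : V z₀ = some 0
  label₁ : V z₁ = some 0
  step : ∀ e ∈ tbl, ∀ j, LabelRel dec e.2 (V (e.1.src j)) (V (e.1.tgt j))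
  connected : ∀ z, (V z).isSome = true → ∃ w, Conn tbl z₀ z w ∨ Conn tbl z₁ z w
  accepts : ∀ w : List (Fin k), dec (code w) = true → Conn tbl z₀ z₁ w

/-- The computation layer. -/
def MachineStatement : Prop :=
  ∀ (k : ℕ) (dec : ℕ → Bool), 0 < k → Computable dec → Nonempty (Machine k dec)

end Vale.Agent.P193.Clapham
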