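import Vale.Agent.P193.Clapham.Present

/-!
# Stable letters given by pairs, and the group `W`

`W = ⟨d, G × F | d (π f, f) d⁻¹ = (1, f)⟩` where `F` is free on the generators of `G`; in it
`f d f⁻¹ = d * π f`.
-/

namespace Vale.Agent.P193.Clapham

section Pairs

variable {α J : Type} {G P : Type} [Group G] [Group P] {A B : Subgroup G}

/-- The isomorphism of the ranges of two injective homomorphisms. -/
noncomputable def pairIso {j j' : P →* G} (hj : Function.Injective j)
    (hj' : Function.Injective j') : j.range ≃* j'.range :=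
  (MonoidHom.ofInjective hj).symm.trans (MonoidHom.ofInjective hj')

theorem pairIso_apply {j j' : P →* G} (hj : Function.Injective j) (hj' : Function.Injective j')
    (p : P) (h : j p ∈ j.range) : (pairIso hj hj' ⟨j p, h⟩ : G) = j' p := by
  have : (MonoidHom.ofInjective hj).symm ⟨j p, h⟩ = p :=
    (MulEquiv.symm_apply_eq _).2 (Subtype.ext rfl)
  simp [pairIso, this, MonoidHom.ofInjective_apply]

theorem move_pairIso {j j' : P →* G} (hj : Function.Injective j) (hj' : Function.Injective j')
    (p : P) : move (pairIso hj hj') true (j p) = j' p := by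
  rw [move_true (φ := pairIso hj hj') (show j p ∈ j.range from ⟨p, rfl⟩), pairIso_apply]

theorem move_pairIso_symm {j j' : P →* G} (hj : Function.Injective j) (hj' : Function.Injective j')
    (p : P) : move (pairIso hj hj') false (j' p) = j p := by
  rw [← move_pairIso hj hj' p]
  exact move_move (φ := pairIso hj hj') (b := true) (show j p ∈ j.range from ⟨p, rfl⟩)

variable {φ : A ≃* B}

theorem phi_word {g : α → G} {u v : J → Wd α} (hmem : ∀ j, ev g (u j) ∈ A)
    (hφ : ∀ j, ∀ h : ev g (u j) ∈ A, (φ ⟨_, h⟩ : G) = ev g (v j)) (x : Wd J)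
    (h : ev (fun j => ev g (u j)) x ∈ A) :
    (φ ⟨_, h⟩ : G) = ev (fun j => ev g (v j)) x := by
  let a : J → A := fun j => ⟨_, hmem j⟩
  have e : (⟨_, h⟩ : A) = ev a x := Subtype.ext (map_ev a A.subtype x).symm
  rw [e, ← MulEquiv.coe_toMonoidHom, map_ev]
  exact map_ev_eq (f := B.subtype) (fun j => hφ j (hmem j)) x

theorem closure_image_pairs {g : α → G} {u v : J → Wd α}
    (hu : Subgroup.closure (Set.range fun j => ev g (u j)) = A)
    (hφ : ∀ j, ∀ h : ev g (u j) ∈ A, (φ ⟨_, h⟩ : G) = ev g (v j)) :
    Subgroup.closure (Set.range fun j => ev g (v j)) = B := by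
  have hmem : ∀ j, ev g (u j) ∈ A := fun j => hu ▸ Subgroup.subset_closure ⟨j, rfl⟩
  refine le_antisymm ((Subgroup.closure_le _).2 ?_) fun y hy => ?_
  · rintro _ ⟨j, rfl⟩
    show ev g (v j) ∈ B
    rw [← hφ j (hmem j)]
    exact SetLike.coe_mem _
  · have h1 : ((φ.symm ⟨y, hy⟩ : A) : G) ∈ Subgroup.closure (Set.range fun j => ev g (u j)) :=
      hu.symm ▸ SetLike.coe_mem _
    obtain ⟨x, hx⟩ := exists_word _ h1
    have h2 : ev (fun j => ev g (u j)) x ∈ A := hx ▸ SetLike.coe_mem _
    have h3 := phi_word hmem hφ x h2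
    rw [show (⟨_, h2⟩ : A) = φ.symm ⟨y, hy⟩ from Subtype.ext hx, φ.apply_symm_apply] at h3
    show y ∈ _
    rw [show y = _ from h3]
    exact ev_mem_closure _ x

theorem Data.of_pairs [Primcodable α] [Primcodable J] [Finite J] {g : α → G} (hgen : Gen g)
    (hwp : DecWP g) (hA : DecIn g (A : Set G)) (hB : DecIn g (B : Set G)) (u v : J → Wd α)
    (hu : Subgroup.closure (Set.range fun j => ev g (u j)) = A)
    (hφ : ∀ j, ∀ h : ev g (u j) ∈ A, (φ ⟨_, h⟩ : G) = ev g (v j)) : Data φ g := by
  have hmem : ∀ j, ev g (u j) ∈ A := fun j => hu ▸ Subgroup.subset_closure ⟨j, rfl⟩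
  refine ⟨hgen, hwp, fun b => by cases b <;> assumption, fun b => ?_⟩
  cases b
  · obtain ⟨f, hf, hfs⟩ := exists_transfer hwp hB (fun a => (φ.symm a : G)) v u
      (closure_image_pairs hu hφ) fun x h => by
        have hx : ev (fun j => ev g (u j)) x ∈ A := by
          rw [← hu]; exact ev_mem_closure _ x
        have e : φ ⟨_, hx⟩ = ⟨_, h⟩ := Subtype.ext (phi_word hmem hφ x hx)
        rw [← e, φ.symm_apply_apply]
    exact ⟨f, hf, fun w hw => (hfs w hw).trans (move_false (φ := φ) _).symm⟩
  · obtain ⟨f, hf, hfs⟩ := exists_transfer hwp hA (fun a => (φ a : G)) u v hu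
      fun x h => phi_word hmem hφ x h
    exact ⟨f, hf, fun w hw => (hfs w hw).trans (move_true (φ := φ) _).symm⟩

theorem closure_range_map {Q : Type} [Group Q] {q : J → P} (hq : Gen q) (f : P →* Q) :
    Subgroup.closure (Set.range fun j => f (q j)) = f.range := by
  rw [MonoidHom.range_eq_map, ← closure_of_gen q hq, MonoidHom.map_closure, ← Set.range_comp]
  rfl

end Pairs

namespace Twist

variable {α G : Type} [Group G] (gG : α → G)

/-- `f ↦ (π f, f)`. -/
def jA : FreeGroup α →* G × FreeGroup α := (FreeGroup.lift gG).prod (MonoidHom.id _)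

/-- `f ↦ (1, f)`. -/
def jB : FreeGroup α →* G × FreeGroup α := MonoidHom.inr G _

theorem jA_injective : Function.Injective (jA gG) := fun _ _ e => congrArg Prod.snd e

theorem jB_injective : Function.Injective (jB : FreeGroup α →* G × FreeGroup α) :=
  fun _ _ e => congrArg Prod.snd e

/-- The conjugation done by `d`. -/
noncomputable def phi : (jA gG).range ≃* (jB : FreeGroup α →* G × FreeGroup α).range :=
  pairIso (jA_injective gG) jB_injective

/-- The group `W`. -/
noncomputable abbrev W : Type :=
  HNNExtension (G × FreeGroup α) (jA gG).range (jB : FreeGroup α →* G × FreeGroup α).range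
    (phi gG)

/-- The generators of `G × F`. -/
abbrev genGF : α ⊕ α → G × FreeGroup α := genP gG FreeGroup.of

/-- The generators of `W`. -/
noncomputable abbrev genW : Option (α ⊕ α) → W gG := genT (phi gG) (genGF gG)

/-- The value attached to a word. -/
noncomputable def value (w : Wd α) : W gG := HNNExtension.t * HNNExtension.of (ev gG w, 1)

/-- The letters of `F`. -/
noncomputable def letter (a : α × Bool) : W gG := HNNExtension.of (1, evL FreeGroup.of a)

theorem letter_value (a : α × Bool) (w : Wd α) :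
    letter gG a * value gG w * (letter gG a)⁻¹ = value gG (a :: w) := by
  have h : HNNExtension.t * HNNExtension.of (jA gG (evL FreeGroup.of a)) =
      HNNExtension.of (jB (G := G) (evL FreeGroup.of a)) *
        (HNNExtension.t : W gG) := by
    have := tp_mul_of (φ := phi gG) (b := true) (x := jA gG (evL FreeGroup.of a)) ⟨_, rfl⟩
    have hm : move (phi gG) true (jA gG (evL FreeGroup.of a)) =
        jB (G := G) (evL FreeGroup.of a) := move_pairIso _ _ _
    rw [hm] at this
    exact this
  have e : FreeGroup.lift gG (evL FreeGroup.of a) = evL gG a := by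
    obtain ⟨x, b⟩ := a; cases b <;> simp [evL]
  show HNNExtension.of (jB (G := G) (evL FreeGroup.of a)) * value gG w *
    (HNNExtension.of (jB (G := G) (evL FreeGroup.of a)))⁻¹ = value gG (a :: w)
  simp only [value]
  rw [← mul_assoc, ← h, mul_assoc, mul_assoc, ← map_inv, ← map_mul, ← map_mul]
  have hx : jA gG (evL FreeGroup.of a) * ((ev gG w, (1 : FreeGroup α)) *
      (jB (G := G) (evL FreeGroup.of a))⁻¹) = (ev gG (a :: w), 1) :=
    Prod.ext (by simp [jA, jB, e]) (by simp [jA, jB])
  rw [hx]

/-- The relators of `d`. -/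
def uW (a : α) : Wd (α ⊕ α) := [(.inl a, true), (.inr a, true)]

/-- Their images. -/
def vW (a : α) : Wd (α ⊕ α) := [(.inr a, true)]

theorem closure_uW : Subgroup.closure (Set.range fun a => ev (genGF gG) (uW a)) = (jA gG).range := by
  rw [← closure_range_map (q := FreeGroup.of)
    (gen_of_closure _ (FreeGroup.closure_range_of α)) (jA gG)]
  congr 2
  funext a
  simp [uW, jA, evL, genP]

theorem phi_uW (a : α) (h : ev (genGF gG) (uW a) ∈ (jA gG).range) :
    (phi gG ⟨_, h⟩ : G × FreeGroup α) = ev (genGF gG) (vW a) := by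
  have e : ev (genGF gG) (uW a) = jA gG (FreeGroup.of a) := by simp [uW, jA, evL, genP]
  rw [← move_true (φ := phi gG) h, e]
  exact (move_pairIso _ _ _).trans (by simp [vW, jB, evL, genP])

variable [Primcodable α] [Finite α] [DecidableEq α]

theorem data (hg : Gen gG) (hwp : DecWP gG) : Data (phi gG) (genGF gG) := by
  have hF : Gen (FreeGroup.of (α := α)) := gen_of_closure _ (FreeGroup.closure_range_of α)
  obtain ⟨d, hd, hds⟩ := hwp.eq
  refine Data.of_pairs (gen_genP hg hF) (decWP_genP hwp decWP_free) ?_ ?_ uW vW (closure_uW gG)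
    (phi_uW gG)
  · refine ⟨fun w => d (fstW w) (sndW w), hd.comp (primrec_subst _).to_comp
      (primrec_subst _).to_comp, fun w => ?_⟩
    rw [hds, ev_fstW gG (FreeGroup.of (α := α)),
      show ev gG (sndW w) = FreeGroup.lift gG (ev FreeGroup.of (sndW w)) from
        (map_ev_eq (fun a => by simp) _).symm, ev_sndW gG (FreeGroup.of (α := α))]
    constructor
    · exact fun e => ⟨_, Prod.ext e.symm rfl⟩
    · rintro ⟨f, hf⟩
      rw [← hf]
      rfl
  · exact (decIn_prod hwp (T := Set.univ)
      (g' := FreeGroup.of) ⟨fun _ => true, Computable.const true, fun _ => by simp⟩).congr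
      fun w => ⟨fun h => ⟨_, Prod.ext h.1.symm rfl⟩, fun ⟨f, hf⟩ => ⟨by rw [← hf]; rfl, trivial⟩⟩

end Twist

end Vale.Agent.P193.Clapham
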