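import Vale.Agent.P193.Clapham.Base
import Vale.Agent.P193.Clapham.Twist
import Vale.Agent.P193.Clapham.Spec

/-!
# The tower over the base

One stable letter per affine map, with the subgroup generated by the `t z`, `z ∈ S`, and the
letters, and a homomorphism `ρ` on it.
-/

namespace Vale.Agent.P193.Clapham

variable {G : Type} [Group G]

theorem dbl_one (V : Subgroup G) : dbl V ({1} : Set G) = V := by
  ext x
  constructor
  · rintro ⟨v, hv, h⟩
    rwa [← inv_mul_eq_one.1 (Set.mem_singleton_iff.1 h)]
  · exact fun h => ⟨x, h, by simp⟩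

theorem dbl_span_image {A B : Subgroup G} {φ : A ≃* B} (V : Subgroup G) (X : Set G) :
    dbl (span φ V) (HNNExtension.of '' X) = omega φ V X := by
  ext z
  constructor
  · rintro ⟨v, hv, x, hx, e⟩
    exact ⟨x, hx, by rw [e, mul_inv_rev]; simpa using hv⟩
  · rintro ⟨x, hx, h⟩
    exact ⟨_, h, x, hx, by simp [mul_assoc]⟩

theorem map_mem_clo_iff {α β : Type} {f : α → β} (hf : Function.Injective f) {S : Set β}
    {x : FreeGroup α} : FreeGroup.map f x ∈ clo S ↔ x ∈ clo (f ⁻¹' S) := by
  constructor
  · intro h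
    have e : (ret S).comp (FreeGroup.map f) = (FreeGroup.map f).comp (ret (f ⁻¹' S)) :=
      FreeGroup.ext_hom _ _ fun a => by
        by_cases ha : f a ∈ S <;> simp [ret, ha]
    have := DFunLike.congr_fun e x
    simp only [MonoidHom.comp_apply, mem_clo_iff.1 h] at this
    rw [mem_clo_iff]
    exact (FreeGroup.map_injective hf this).symm
  · intro h
    induction h using Subgroup.closure_induction with
    | mem y hy => obtain ⟨a, ha, rfl⟩ := hy; simpa using of_mem_clo (S := S) ha
    | one => simp
    | mul y z _ _ hy hz => rw [map_mul]; exact mul_mem hy hz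
    | inv y _ hy => rw [map_inv]; exact inv_mem hy

theorem aff_mem_tsub {S : Set ℤ} {r m : ℕ} (h : 0 < m) (y : Base) :
    aff r m y ∈ tsub S ↔ y.right = 1 ∧ y.left ∈ clo (affZ r m ⁻¹' S) := by
  rw [mem_tsub]
  simp only [aff, SemidirectProduct.map_left, SemidirectProduct.map_right]
  refine and_congr ⟨fun e => ?_, fun e => by simp [e]⟩ (map_mem_clo_iff (affZ_injective h))
  have e3 : (m : ℤ) * y.right.toAdd = 0 := congrArg Multiplicative.toAdd e
  exact Multiplicative.toAdd.injective
    ((mul_eq_zero.1 e3).resolve_left (by exact_mod_cast h.ne'))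

/-- The data from which a tower is built. -/
structure Rules (W : Type) [Group W] where
  tbl : List (Aff × W)
  S : Set ℤ
  test : ℤ → Bool
  computable_test : Computable test
  test_iff : ∀ z, test z = true ↔ z ∈ S
  val : ℤ → W
  mem_iff : ∀ e ∈ tbl, ∀ j, affZ e.1.r e.1.m j ∈ S ↔ affZ e.1.s e.1.n j ∈ S
  conj : ∀ e ∈ tbl, ∀ j, affZ e.1.r e.1.m j ∈ S →
    e.2 * val (affZ e.1.r e.1.m j) * e.2⁻¹ = val (affZ e.1.s e.1.n j)

variable {W : Type} [Group W] (P : Rules W)

/-- What is carried along the tower. -/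
structure Stage (done : List (Aff × W)) where
  α : Type
  [prim : Primcodable α]
  [fin : Finite α]
  K : Type
  [grp : Group K]
  g : α → K
  emb : Base →* K
  wB : Bool → Wd α
  L : Subgroup K
  ρ : L →* W
  R : Set (Wd α)
  extra : List (Wd α)
  gen : Gen g
  wp : DecWP g
  presented : Presented g R
  finite_R : R.Finite
  emb_injective : Function.Injective emb
  ev_wB : ∀ b, ev g (wB b) = emb (genB b)
  image : ∀ X : Set Base, DecIn genB X → DecIn g (emb '' X)
  mem_L : ∀ x, emb x ∈ L ↔ x ∈ tsub P.S
  decL : DecIn g (L : Set K)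
  coset : ∀ r m, r < m → DecIn g (dbl L (emb '' ((aff r m).range : Set Base)))
  ρ_base : ∀ (x : Base) (h : emb x ∈ L), ρ ⟨emb x, h⟩ = FreeGroup.lift P.val x.left
  letters : ∀ e ∈ done, ∃ (τ : K) (h : τ ∈ L), ρ ⟨τ, h⟩ = e.2 ∧
    ∀ z, τ * emb (aff e.1.r e.1.m z) = emb (aff e.1.s e.1.n z) * τ
  extra_mem : ∀ w ∈ extra, ev g w ∈ L
  generated : L ≤ Subgroup.closure (emb '' (tsub P.S : Set Base) ∪ {x | ∃ w ∈ extra, ev g w = x})

attribute [instance] Stage.prim Stage.fin Stage.grp

theorem lift_val_eq {e : Aff × W} (he : e ∈ P.tbl) {y : FreeGroup ℤ}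
    (hy : y ∈ clo (affZ e.1.r e.1.m ⁻¹' P.S)) :
    e.2 * FreeGroup.lift P.val (FreeGroup.map (affZ e.1.r e.1.m) y) * e.2⁻¹ =
      FreeGroup.lift P.val (FreeGroup.map (affZ e.1.s e.1.n) y) := by
  induction hy using Subgroup.closure_induction with
  | mem x hx => obtain ⟨j, hj, rfl⟩ := hx; simpa using P.conj e he j hj
  | one => simp
  | mul a b _ _ ha hb => simp only [map_mul]; rw [← conj_mul, ha, hb]
  | inv a _ ha => simp only [map_inv]; rw [← conj_inv, ha]

theorem exists_base_stage : Nonempty (Stage P []) := by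
  refine ⟨{
    α := Bool
    K := Base
    g := genB
    emb := MonoidHom.id _
    wB := fun b => [(b, true)]
    L := tsub P.S
    ρ := MonoidHom.mk' (fun x => FreeGroup.lift P.val x.1.left) fun x y => by
      have hx : x.1.right = 1 := ((mem_tsub _).1 x.2).1
      simp [hx]
    R := ∅
    extra := []
    gen := gen_genB
    wp := decWP_genB
    presented := ⟨by simp, fun _ _ h _ => free_genB h⟩
    finite_R := Set.finite_empty
    emb_injective := fun _ _ e => e
    ev_wB := fun b => ev_single genB b
    image := fun X h => by simpa using h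
    mem_L := fun _ => Iff.rfl
    decL := decIn_tsub P.computable_test P.test_iff
    coset := fun r m h => by simpa using decIn_dbl_tsub P.computable_test P.test_iff h
    ρ_base := fun _ _ => rfl
    letters := by simp
    extra_mem := by simp
    generated := fun x hx => Subgroup.subset_closure (Or.inl ⟨x, hx, rfl⟩) }⟩

theorem exists_step {done : List (Aff × W)} (Q : Stage P done) {e : Aff × W} (he : e ∈ P.tbl) :
    Nonempty (Stage P (e :: done)) := by
  obtain ⟨a, y⟩ := e
  have hm : 0 < a.m := lt_of_le_of_lt (Nat.zero_le _) a.hr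
  have hn : 0 < a.n := lt_of_le_of_lt (Nat.zero_le _) a.hs
  let j₁ : Base →* Q.K := Q.emb.comp (aff a.r a.m)
  let j₂ : Base →* Q.K := Q.emb.comp (aff a.s a.n)
  have hj₁ : Function.Injective j₁ := Q.emb_injective.comp (aff_injective hm)
  have hj₂ : Function.Injective j₂ := Q.emb_injective.comp (aff_injective hn)
  let φ := pairIso hj₁ hj₂
  choose wd hwd using gen_genB
  let u : Bool → Wd Q.α := fun b => subst Q.wB (wd (aff a.r a.m (genB b)))
  let v : Bool → Wd Q.α := fun b => subst Q.wB (wd (aff a.s a.n (genB b)))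
  have hsub : ∀ w, ev Q.g (subst Q.wB w) = Q.emb (ev genB w) := fun w => by
    rw [ev_subst, map_ev]
    exact congrArg (fun f => ev f w) (funext Q.ev_wB)
  have hu1 : ∀ b, ev Q.g (u b) = j₁ (genB b) := fun b => by
    show ev Q.g (subst Q.wB _) = _
    rw [hsub, hwd]; rfl
  have hv1 : ∀ b, ev Q.g (v b) = j₂ (genB b) := fun b => by
    show ev Q.g (subst Q.wB _) = _
    rw [hsub, hwd]; rfl
  have hu : Subgroup.closure (Set.range fun b => ev Q.g (u b)) = j₁.range := by
    rw [show (fun b => ev Q.g (u b)) = fun b => j₁ (genB b) from funext hu1,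
      closure_range_map gen_genB]
  have hφ : ∀ b, ∀ h : ev Q.g (u b) ∈ j₁.range, (φ ⟨_, h⟩ : Q.K) = ev Q.g (v b) := fun b h => by
    rw [← move_true (φ := φ) h, hu1, hv1]
    exact move_pairIso hj₁ hj₂ _
  have himg : ∀ r m, (((Q.emb.comp (aff r m)).range : Subgroup Q.K) : Set Q.K) =
      Q.emb '' ((aff r m).range : Set Base) := fun r m => by
    rw [MonoidHom.range_comp, Subgroup.coe_map]
  have hside : ∀ r m, r < m → DecIn Q.g ((Q.emb.comp (aff r m)).range : Set Q.K) := fun r m h => by
    rw [himg]; exact Q.image _ (decIn_range_aff h)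
  have D : Data φ Q.g :=
    Data.of_pairs Q.gen Q.wp (hside _ _ a.hr) (hside _ _ a.hs) u v hu hφ
  have hpre : affZ a.r a.m ⁻¹' P.S = affZ a.s a.n ⁻¹' P.S := Set.ext (P.mem_iff _ he)
  have hC : Compat φ Q.L := by
    intro b x hx hb
    cases b
    · obtain ⟨z, rfl⟩ := (show x ∈ j₂.range from hb)
      rw [move_pairIso_symm]
      have := (Q.mem_L _).1 hx
      rw [aff_mem_tsub hn, ← hpre, ← aff_mem_tsub hm] at this
      exact (Q.mem_L _).2 this
    · obtain ⟨z, rfl⟩ := (show x ∈ j₁.range from hb)
      rw [move_pairIso]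
      have := (Q.mem_L _).1 hx
      rw [aff_mem_tsub hm, hpre, ← aff_mem_tsub hn] at this
      exact (Q.mem_L _).2 this
  obtain ⟨ρ', hρ', hρt⟩ := exists_hom_span hC Q.ρ y fun x hx hA => by
    obtain ⟨z, rfl⟩ := (show x ∈ j₁.range from hA)
    have hm2 : move φ true (j₁ z) = Q.emb (aff a.s a.n z) := move_pairIso hj₁ hj₂ z
    have h2 : Q.emb (aff a.s a.n z) ∈ Q.L := hm2 ▸ hC true _ hx hA
    rw [show (⟨move φ true (j₁ z), hC true _ hx hA⟩ : Q.L) = ⟨_, h2⟩ from Subtype.ext hm2,
      Q.ρ_base]
    erw [Q.ρ_base]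
    have hz := (Q.mem_L _).1 hx
    rw [aff_mem_tsub hm] at hz
    have := lift_val_eq P he hz.2
    exact mul_inv_eq_iff_eq_mul.1 this
  have hcos : ∀ b, DecIn Q.g (dbl Q.L (side j₁.range j₂.range b : Set Q.K)) := fun b => by
    cases b
    · show DecIn Q.g (dbl Q.L (j₂.range : Set Q.K))
      rw [himg]; exact Q.coset _ _ a.hs
    · show DecIn Q.g (dbl Q.L (j₁.range : Set Q.K))
      rw [himg]; exact Q.coset _ _ a.hr
  have hspan : omega φ Q.L {1} = (span φ Q.L : Set _) := by
    ext z
    simp [omega]
  refine ⟨{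
    α := Option Q.α
    K := HNNExtension Q.K j₁.range j₂.range φ
    g := genT φ Q.g
    emb := HNNExtension.of.comp Q.emb
    wB := fun b => mapW some (Q.wB b)
    L := span φ Q.L
    ρ := ρ'
    R := mapW some '' Q.R ∪ Set.range fun b => letterRel (u b) (v b)
    extra := [(none, true)] :: Q.extra.map (mapW some)
    gen := gen_genT Q.gen
    wp := decWP_genT D
    presented := presented_hnn Q.presented u v hu hφ
    finite_R := (Q.finite_R.image _).union (Set.finite_range _)
    emb_injective := fun _ _ e => Q.emb_injective (HNNExtension.of_injective (φ := φ) e)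
    ev_wB := fun b => by rw [ev_genT_some, Q.ev_wB]; rfl
    image := fun X h => by
      rw [show (HNNExtension.of.comp Q.emb : Base →* HNNExtension Q.K j₁.range j₂.range φ) '' X =
        HNNExtension.of '' (Q.emb '' X) from by rw [MonoidHom.coe_comp, Set.image_comp]]
      exact decIn_of_image D (Q.image X h)
    mem_L := fun x => ⟨fun h => (Q.mem_L x).1 (mem_of_of_mem_span hC h),
      fun h => of_mem_span ((Q.mem_L x).2 h)⟩
    decL := by
      rw [← hspan]
      exact decIn_omega D hC Q.decL hcos (by rw [dbl_one]; exact Q.decL)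
    coset := fun r m h => by
      rw [show (HNNExtension.of.comp Q.emb : Base →* HNNExtension Q.K j₁.range j₂.range φ) ''
        ((aff r m).range : Set Base) = HNNExtension.of '' (Q.emb '' ((aff r m).range : Set Base))
        from by rw [MonoidHom.coe_comp, Set.image_comp], dbl_span_image]
      exact decIn_omega D hC Q.decL hcos (Q.coset r m h)
    ρ_base := fun x h => by
      have h' : Q.emb x ∈ Q.L := mem_of_of_mem_span hC h
      exact (hρ' _ h').trans (Q.ρ_base x h')
    letters := ?_
    extra_mem := ?_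
    generated := ?_ }⟩
  · intro e he'
    rcases List.mem_cons.1 he' with rfl | he'
    · refine ⟨tp φ true, tp_mem_span _ true, hρt, fun z => ?_⟩
      have := tp_mul_of (φ := φ) (b := true) (x := j₁ z) ⟨z, rfl⟩
      rw [move_pairIso] at this
      exact this
    · obtain ⟨τ, hτ, hρτ, hτc⟩ := Q.letters e he'
      refine ⟨HNNExtension.of τ, of_mem_span hτ, (hρ' τ hτ).trans hρτ, fun z => ?_⟩
      simp only [MonoidHom.comp_apply]
      rw [← map_mul, ← map_mul, hτc]
  · intro w hw
    rcases List.mem_cons.1 hw with rfl | hw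
    · rw [ev_single]; exact tp_mem_span Q.L true
    · obtain ⟨w', hw', rfl⟩ := List.mem_map.1 hw
      rw [ev_genT_some]
      exact of_mem_span (Q.extra_mem w' hw')
  · refine (Subgroup.closure_le _).2 ?_
    rintro z (⟨x, hx, rfl⟩ | rfl)
    · have h := Q.generated hx
      rw [SetLike.mem_coe]
      revert h
      rw [← Subgroup.mem_comap]
      refine fun h => (Subgroup.closure_le _).2 ?_ h
      rintro _ (⟨b, hb, rfl⟩ | ⟨w, hw, rfl⟩)
      · exact Subgroup.subset_closure (Or.inl ⟨b, hb, rfl⟩)
      · exact Subgroup.subset_closure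
          (Or.inr ⟨mapW some w, List.mem_cons_of_mem _ (List.mem_map.2 ⟨w, hw, rfl⟩),
            ev_genT_some Q.g w⟩)
    · exact Subgroup.subset_closure (Or.inr ⟨_, List.mem_cons_self, ev_single _ _⟩)

/-- A stage containing all the letters. -/
theorem exists_stage : Nonempty (Stage P P.tbl) := by
  suffices H : ∀ done, (∀ e ∈ done, e ∈ P.tbl) → Nonempty (Stage P done) from
    H P.tbl fun _ h => h
  intro done
  induction done with
  | nil => exact fun _ => exists_base_stage P
  | cons e done ih =>
    intro h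
    obtain ⟨Q⟩ := ih fun x hx => h x (List.mem_cons_of_mem _ hx)
    exact exists_step P Q (h e List.mem_cons_self)

end Vale.Agent.P193.Clapham
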