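import Vale.Agent.P193.BH.Defs
import Vale.Agent.P193.Clapham.Tower
import Vale.Agent.P193.Clapham.Machine.Table

/-!
# Clapham's theorem

A finitely generated group with decidable word problem embeds in an infinite finitely presented
group with decidable word problem.
-/

namespace Vale.Agent.P193.Clapham

section Codes

variable {k : ℕ}

@[simp] theorem code_nil : code ([] : List (Fin k)) = 0 := rfl

theorem code_cons (i : Fin k) (w : List (Fin k)) : code (i :: w) = k * code w + i + 1 := rfl

theorem code_injective : Function.Injective (code : List (Fin k) → ℕ) := by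
  intro v
  induction v with
  | nil =>
    rintro (- | ⟨i, w⟩) h
    · rfl
    · rw [code_cons] at h; simp at h
  | cons i v ih =>
    rintro (- | ⟨j, w⟩) h
    · rw [code_cons] at h; simp at h
    · rw [code_cons, code_cons, Nat.add_right_cancel_iff] at h
      have h1 : (k * code v + i) % k = (k * code w + j) % k := by rw [h]
      simp only [Nat.mul_add_mod, Nat.mod_eq_of_lt i.isLt, Nat.mod_eq_of_lt j.isLt] at h1
      obtain rfl : i = j := Fin.ext h1
      have hk : 0 < k := lt_of_le_of_lt (Nat.zero_le _) i.isLt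
      have h2 : k * code v = k * code w := by omega
      rw [ih (Nat.eq_of_mul_eq_mul_left hk h2)]

theorem code_surjective (hk : 0 < k) : Function.Surjective (code : List (Fin k) → ℕ) := by
  intro c
  induction c using Nat.strong_induction_on with
  | _ c ih =>
    rcases Nat.eq_zero_or_pos c with rfl | hc
    · exact ⟨[], rfl⟩
    · have h1 : (c - 1) / k < c :=
        lt_of_le_of_lt (Nat.div_le_self _ _) (by omega)
      obtain ⟨w, hw⟩ := ih _ h1
      refine ⟨⟨(c - 1) % k, Nat.mod_lt _ hk⟩ :: w, ?_⟩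
      rw [code_cons, hw]
      have := Nat.div_add_mod (c - 1) k
      simp only
      omega

theorem primrec_code : Primrec (code : List (Fin k) → ℕ) :=
  (Primrec.list_foldr Primrec.id (Primrec.const 0) <| Primrec.to₂ <|
    Primrec.nat_add.comp
      (Primrec.nat_add.comp
        (Primrec.nat_mul.comp (Primrec.const k) (Primrec.snd.comp Primrec.snd))
        ((Primrec.dom_finite fun i : Fin k => (i : ℕ)).comp (Primrec.fst.comp Primrec.snd)))
      (Primrec.const 1)).of_eq fun w => by
    induction w with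
    | nil => rfl
    | cons i w ih => simp only [id_eq] at ih ⊢; rw [List.foldr_cons, ih, code_cons]

theorem exists_decode (hk : 0 < k) :
    ∃ dw : ℕ → List (Fin k), Computable dw ∧ ∀ c, code (dw c) = c := by
  have hp : Computable₂ fun (c : ℕ) (w : List (Fin k)) => decide (code w = c) :=
    Computable.to₂ (Primrec.eq.comp (primrec_code.comp Primrec.snd) Primrec.fst).decide.to_comp
  obtain ⟨dw, h1, h2⟩ := computable_search hp fun c =>
    (code_surjective hk c).imp fun w hw => decide_eq_true hw
  exact ⟨dw, h1, fun c => of_decide_eq_true (h2 c)⟩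

end Codes

section Final

variable {α G : Type} [Primcodable α] [Fintype α] [DecidableEq α] [Group G] {gG : α → G}

theorem clapham_core [Nonempty α] (hG : Gen gG) (hwp : DecWP gG) :
    ∃ (E : Type) (_ : Group E), Group.IsFinitelyPresented E ∧ HasDecidableWP E ∧ Infinite E ∧
      ∃ f : G →* E, Function.Injective f := by
  -- letters and codes
  set k := Fintype.card (α × Bool) with hk
  let e : Fin k ≃ α × Bool := (Fintype.equivFin _).symm
  have hkpos : 0 < k := Fintype.card_pos
  obtain ⟨dw, hdw, hdws⟩ := exists_decode hkpos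
  have hdwc : ∀ w, dw (code w) = w := fun w => code_injective (hdws _)
  obtain ⟨dG, hdG, hdGs⟩ := id hwp
  let dec : ℕ → Bool := fun c => dG ((dw c).map e)
  have hdec : Computable dec := hdG.comp ((Primrec.list_map Primrec.id
    ((Primrec.dom_finite e).comp Primrec.snd).to₂).to_comp.comp hdw)
  obtain ⟨M⟩ := machine k dec hkpos hdec
  -- the rules
  let Vz : ℤ → Option ℕ := fun z => if 0 ≤ z then M.V z.toNat else none
  let val : ℤ → Twist.W gG := fun z =>
    (Vz z).elim 1 fun c => Twist.value gG ((dw c).map e)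
  let yOf : Option (Fin k) → Twist.W gG := fun o => o.elim 1 fun i => Twist.letter gG (e i)
  let tbl : List (Aff × Twist.W gG) := M.tbl.map fun p => (p.1, yOf p.2)
  let S : Set ℤ := {z | (Vz z).isSome = true}
  obtain ⟨dV, hdV, hdVs⟩ : ∃ d : ℕ → Bool, Computable d ∧ ∀ z, d z = (M.V z).isSome := by
    obtain ⟨inst, h⟩ := M.computable_dom
    exact ⟨_, h, fun z => by simp⟩
  let test : ℤ → Bool := fun z =>
    decide (Encodable.encode z % 2 = 0) && dV (Encodable.encode z / 2)
  have htest : Computable test := Primrec.and.to_comp.comp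
    (Primrec.eq.comp (Primrec.nat_mod.comp Primrec.encode (Primrec.const 2))
      (Primrec.const 0)).decide.to_comp
    (hdV.comp (Primrec.nat_div.comp Primrec.encode (Primrec.const 2)).to_comp)
  have htest' : ∀ z, test z = true ↔ z ∈ S := by
    intro z
    rcases z with n | n
    · show (decide (2 * n % 2 = 0) && dV (2 * n / 2)) = true ↔ (Vz (Int.ofNat n)).isSome = true
      simp [Vz, hdVs]
    · show (decide ((2 * n + 1) % 2 = 0) && dV ((2 * n + 1) / 2)) = true ↔
        (Vz (Int.negSucc n)).isSome = true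
      simp [Vz]
  have hVz : ∀ n : ℕ, Vz n = M.V n := fun n => by simp [Vz]
  have hneg : ∀ {r m : ℕ}, r < m → ∀ {j : ℤ}, j < 0 → Vz (affZ r m j) = none := by
    intro r m h j hj
    have : affZ r m j < 0 := by
      have h1 : (m : ℤ) * j ≤ (m : ℤ) * (-1) :=
        mul_le_mul_of_nonneg_left (by omega) (Int.natCast_nonneg m)
      simp only [affZ]
      omega
    simp [Vz, not_le.2 this]
  have hpos : ∀ (r m j : ℕ), Vz (affZ r m j) = M.V (r + m * j) := fun r m j => by
    rw [← hVz]; simp [affZ]
  have hdec1 : ∀ c, dec c = true → ev gG ((dw c).map e) = 1 := fun c h => (hdGs _).1 h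
  have hvalue : ∀ w, ev gG w = 1 → Twist.value gG w = Twist.value gG [] := fun w h => by
    simp [Twist.value, h]
  have hrel : ∀ e' ∈ M.tbl, ∀ j : ℤ,
      ((Vz (affZ e'.1.r e'.1.m j)).isSome = true ↔ (Vz (affZ e'.1.s e'.1.n j)).isSome = true) ∧
      ((Vz (affZ e'.1.r e'.1.m j)).isSome = true →
        yOf e'.2 * val (affZ e'.1.r e'.1.m j) * (yOf e'.2)⁻¹ = val (affZ e'.1.s e'.1.n j)) := by
    intro e' he' j
    rcases lt_or_ge j 0 with hj | hj
    · simp [hneg e'.1.hr hj, hneg e'.1.hs hj]
    obtain ⟨j, rfl⟩ := Int.eq_ofNat_of_zero_le hj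
    have hs : LabelRel dec e'.2 (Vz (affZ e'.1.r e'.1.m j)) (Vz (affZ e'.1.s e'.1.n j)) := by
      rw [hpos, hpos]; exact M.step e' he' j
    obtain ⟨a, o⟩ := e'
    simp only [val]
    rcases h : Vz (affZ a.r a.m j) with - | c <;> simp only [h] at hs
    · rcases o with - | i <;> simp [LabelRel] at hs <;> simp [hs]
    rcases o with - | i
    · simp only [LabelRel] at hs
      rcases hs with hs | ⟨hd, hs⟩ <;> simp only [hs, yOf, Option.elim, Option.isSome_some] <;>
        refine ⟨by trivial, fun _ => ?_⟩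
      · simp
      · rw [one_mul, inv_one, mul_one, hvalue _ (hdec1 c hd)]
        rw [show dw 0 = [] from (congrArg dw code_nil).symm.trans (hdwc [])]
        rfl
    · simp only [LabelRel] at hs
      simp only [hs, yOf, Option.elim, Option.isSome_some]
      refine ⟨by trivial, fun _ => ?_⟩
      rw [Twist.letter_value]
      have : dw (k * c + i + 1) = i :: dw c := code_injective <| by
        rw [hdws, code_cons, hdws]
      rw [this, List.map_cons]
  let P : Rules (Twist.W gG) :=
    { tbl := tbl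
      S := S
      test := test
      computable_test := htest
      test_iff := htest'
      val := val
      mem_iff := fun p hp j => by
        obtain ⟨e', he', rfl⟩ := List.mem_map.1 hp
        exact (hrel e' he' j).1
      conj := fun p hp j hj => by
        obtain ⟨e', he', rfl⟩ := List.mem_map.1 hp
        exact (hrel e' he' j).2 hj }
  obtain ⟨Q⟩ := exists_stage P
  -- the group `W` and `K × W`
  have hFgen : Gen (FreeGroup.of (α := α)) := gen_of_closure _ (FreeGroup.closure_range_of α)
  have DW := Twist.data gG hG hwp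
  have hgenW : Gen (Twist.genW gG) := gen_genT DW.gen
  have hwpW : DecWP (Twist.genW gG) := decWP_genT DW
  have hRW := presented_hnn (presented_prod hG hFgen (presented_of_gen hG) presented_free)
    Twist.uW Twist.vW (Twist.closure_uW gG) (Twist.phi_uW gG)
  -- the generators of `L`
  have hz : ∀ z, z ∈ S → Q.emb (tz z) ∈ Q.L := fun z hz => (Q.mem_L _).2 (tz_mem_tsub hz)
  have hz0 : (M.z₀ : ℤ) ∈ S := by
    show (Vz M.z₀).isSome = true
    rw [hVz, M.label₀]; rfl
  have hz1 : (M.z₁ : ℤ) ∈ S := by
    show (Vz M.z₁).isSome = true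
    rw [hVz, M.label₁]; rfl
  choose wd hwd using gen_genB
  choose τ hτL hτρ hτc using fun i : Fin tbl.length => Q.letters (tbl.get i) (List.get_mem _ _)
  choose wτ hwτ using fun i => Q.gen (τ i)
  let J : Type := Bool ⊕ (Fin tbl.length ⊕ Fin Q.extra.length)
  let lJ : J → Wd Q.α := Sum.elim
    (fun b => subst Q.wB (wd (tz (cond b (M.z₁ : ℤ) (M.z₀ : ℤ)))))
    (Sum.elim wτ fun i => Q.extra.get i)
  have hl0 : ∀ b, ev Q.g (lJ (.inl b)) = Q.emb (tz (cond b (M.z₁ : ℤ) (M.z₀ : ℤ))) := fun b => by
    show ev Q.g (subst Q.wB _) = _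
    rw [ev_subst, show (fun j => ev Q.g (Q.wB j)) = Q.emb ∘ genB from funext Q.ev_wB, ← map_ev, hwd]
  have hlJ : ∀ j, ev Q.g (lJ j) ∈ Q.L := by
    rintro (b | i | i)
    · rw [hl0]; cases b
      · exact hz _ hz0
      · exact hz _ hz1
    · show ev Q.g (wτ i) ∈ Q.L
      rw [hwτ]; exact hτL i
    · exact Q.extra_mem _ (List.get_mem _ _)
  let idx : ∀ p ∈ M.tbl, ∃ i : Fin tbl.length, tbl.get i = (p.1, yOf p.2) := fun p hp =>
    List.mem_iff_get.1 (List.mem_map.2 ⟨p, hp, rfl⟩)
  have htz : ∀ (i : Fin tbl.length) (j : ℕ),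
      τ i * Q.emb (tz ((tbl.get i).1.src j : ℤ)) = Q.emb (tz ((tbl.get i).1.tgt j : ℤ)) * τ i := by
    intro i j
    have := hτc i (tz j)
    simpa [aff_tz, affZ, Aff.src, Aff.tgt] using this
  have hclosure : Subgroup.closure (Set.range fun j => ev Q.g (lJ j)) = Q.L := by
    refine le_antisymm ((Subgroup.closure_le _).2 (Set.range_subset_iff.2 hlJ)) ?_
    set C := Subgroup.closure (Set.range fun j => ev Q.g (lJ j)) with hC
    have hτC : ∀ i, τ i ∈ C := fun i =>
      Subgroup.subset_closure ⟨.inr (.inl i), hwτ i⟩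
    have hconn : ∀ a z w, Conn M.tbl a z w → Q.emb (tz (a : ℤ)) ∈ C → Q.emb (tz (z : ℤ)) ∈ C := by
      intro a z w hc ha
      induction hc with
      | base => exact ha
      | @fwd a' j w hp _ ih =>
        obtain ⟨i, hi⟩ := idx _ hp
        have h := htz i j
        rw [hi] at h
        rw [eq_mul_inv_of_mul_eq h.symm]
        exact mul_mem (mul_mem (hτC i) ih) (inv_mem (hτC i))
      | @bwd a' j w hp _ ih =>
        obtain ⟨i, hi⟩ := idx _ hp
        have h := htz i j
        rw [hi] at h
        rw [eq_inv_mul_of_mul_eq h]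
        exact mul_mem (inv_mem (hτC i)) (mul_mem ih (hτC i))
      | @push a' j i' w hp _ ih =>
        obtain ⟨i, hi⟩ := idx _ hp
        have h := htz i j
        rw [hi] at h
        rw [eq_mul_inv_of_mul_eq h.symm]
        exact mul_mem (mul_mem (hτC i) ih) (inv_mem (hτC i))
    refine Q.generated.trans ((Subgroup.closure_le _).2 ?_)
    rintro _ (⟨x, hx, rfl⟩ | ⟨w, hw, rfl⟩)
    · show x ∈ C.comap Q.emb
      obtain ⟨f, hf, rfl⟩ := hx
      show f ∈ (C.comap Q.emb).comap (SemidirectProduct.inl : FreeGroup ℤ →* Base)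
      refine (Subgroup.closure_le _).2 ?_ hf
      rintro _ ⟨z, hzS, rfl⟩
      show Q.emb (tz z) ∈ C
      rcases z with n | n
      · have hn : (M.V n).isSome = true := by rw [← hVz]; exact hzS
        have h0 : Q.emb (tz (M.z₀ : ℤ)) ∈ C := Subgroup.subset_closure ⟨.inl false, hl0 false⟩
        have h1 : Q.emb (tz (M.z₁ : ℤ)) ∈ C := Subgroup.subset_closure ⟨.inl true, hl0 true⟩
        obtain ⟨w, hw | hw⟩ := M.connected n hn
        · exact hconn _ _ _ hw h0
        · exact hconn _ _ _ hw h1
      · exact absurd hzS (show ¬ (Vz (Int.negSucc n)).isSome = true by simp [Vz])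
    · obtain ⟨i, rfl⟩ := List.mem_iff_get.1 hw
      exact Subgroup.subset_closure ⟨.inr (.inr i), rfl⟩
  let lL : J → Q.L := fun j => ⟨_, hlJ j⟩
  have hgenL : Gen lL := fun x => by
    obtain ⟨w, hw⟩ := exists_word (fun j => ev Q.g (lJ j)) (x := x.1) (hclosure.symm ▸ x.2)
    exact ⟨w, Subtype.ext ((map_ev lL Q.L.subtype w).trans hw)⟩
  choose wρ hwρ using hgenW
  let lwd : α × Bool → Wd (Option (α ⊕ α)) := fun a => [(some (.inr a.1), a.2)]
  have hlwd : ∀ a, ev (Twist.genW gG) (lwd a) = Twist.letter gG a := fun a => by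
    obtain ⟨a, b⟩ := a
    cases b <;> simp [lwd, evL, Twist.letter, genP, genT, ← map_inv]
  let vl : Fin tbl.length → Wd (Option (α ⊕ α)) := fun i =>
    ((M.tbl.get ⟨i, by simpa [tbl] using i.isLt⟩).2).elim [] fun o => lwd (e o)
  have hvl : ∀ i, ev (Twist.genW gG) (vl i) = (tbl.get i).2 := fun i => by
    have : tbl.get i = ((M.tbl.get ⟨i, by simpa [tbl] using i.isLt⟩).1,
        yOf (M.tbl.get ⟨i, by simpa [tbl] using i.isLt⟩).2) := by simp [tbl]
    rw [this]
    simp only [vl]
    generalize (M.tbl.get ⟨i, by simpa [tbl] using i.isLt⟩).2 = o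
    rcases o with - | o
    · simp [yOf]
    · simp [yOf, hlwd]
  let vJ : J → Wd (Option (α ⊕ α)) := Sum.elim (fun _ => [(none, true)])
    (Sum.elim vl fun i => wρ (Q.ρ (lL (.inr (.inr i)))))
  have hvJ : ∀ j, ev (Twist.genW gG) (vJ j) = Q.ρ (lL j) := by
    rintro (b | i | i)
    · show ev (Twist.genW gG) [(none, true)] = Q.ρ (lL (.inl b))
      have hb : lL (.inl b) = ⟨Q.emb (tz (cond b (M.z₁ : ℤ) (M.z₀ : ℤ))), hl0 b ▸ hlJ (.inl b)⟩ :=
        Subtype.ext (hl0 b)
      rw [hb, Q.ρ_base, ev_single]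
      show (HNNExtension.t : Twist.W gG) = _
      have hV : ∀ b, Vz (cond b (M.z₁ : ℤ) (M.z₀ : ℤ)) = some 0 := fun b => by
        cases b <;> simp [hVz, M.label₀, M.label₁]
      simp only [tz, SemidirectProduct.left_inl, FreeGroup.lift_apply_of]
      show _ = val _
      simp only [val, hV, Option.elim]
      rw [show dw 0 = [] from (congrArg dw code_nil).symm.trans (hdwc [])]
      simp [Twist.value, show ((1, 1) : G × FreeGroup α) = 1 from rfl]
    · have hi : lL (.inr (.inl i)) = ⟨τ i, hτL i⟩ := Subtype.ext (hwτ i)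
      rw [hi, hτρ]
      exact hvl i
    · exact hwρ _
  -- the last extension
  let gKW := genP Q.g (Twist.genW gG)
  let jA : Q.L →* Q.K × Twist.W gG := (MonoidHom.inl _ _).comp Q.L.subtype
  let jB : Q.L →* Q.K × Twist.W gG := Q.L.subtype.prod Q.ρ
  have hjA : Function.Injective jA := fun x y h => Subtype.ext (congrArg Prod.fst h)
  have hjB : Function.Injective jB := fun x y h => Subtype.ext (congrArg Prod.fst h :)
  let φ := pairIso hjA hjB
  let u : J → Wd (Q.α ⊕ Option (α ⊕ α)) := fun j => mapW Sum.inl (lJ j)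
  let v : J → Wd (Q.α ⊕ Option (α ⊕ α)) := fun j => mapW Sum.inl (lJ j) ++ mapW Sum.inr (vJ j)
  have hu1 : ∀ j, ev gKW (u j) = jA (lL j) := fun j => ev_inlW _ _ _
  have hu : Subgroup.closure (Set.range fun j => ev gKW (u j)) = jA.range := by
    rw [show (fun j => ev gKW (u j)) = fun j => jA (lL j) from funext hu1,
      closure_range_map hgenL]
  have hφ : ∀ j, ∀ h : ev gKW (u j) ∈ jA.range, (φ ⟨_, h⟩ : Q.K × Twist.W gG) = ev gKW (v j) :=
    fun j h => by
      rw [← move_true (φ := φ) h, hu1, move_pairIso, ev_append, ev_inlW, ev_inrW, hvJ]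
      exact Prod.ext (by simp [jB, lL]) (by simp [jB])
  have hwpKW : DecWP gKW := decWP_genP Q.wp hwpW
  have hA : DecIn gKW (jA.range : Set (Q.K × Twist.W gG)) :=
    (decIn_prod Q.decL hwpW).congr fun w => ⟨fun ⟨h1, h2⟩ => ⟨⟨_, h1⟩, Prod.ext rfl h2.symm⟩,
      fun ⟨l, hl⟩ => by rw [← hl]; exact ⟨l.2, rfl⟩⟩
  have hB : DecIn gKW (jB.range : Set (Q.K × Twist.W gG)) := by
    have hmem : ∀ j, ev gKW (u j) ∈ jA.range := fun j => hu ▸ Subgroup.subset_closure ⟨j, rfl⟩
    obtain ⟨f, hf, hfs⟩ := exists_transfer hwpKW hA (fun a => (φ a : Q.K × Twist.W gG)) u v hu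
      fun x h => phi_word hmem hφ x h
    obtain ⟨dL, hdL, hdLs⟩ := id Q.decL
    obtain ⟨de, hde, hdes⟩ := hwpKW.eq
    have hfst : Computable (fstW : Wd (Q.α ⊕ Option (α ⊕ α)) → Wd Q.α) :=
      (primrec_subst _).to_comp
    refine ⟨fun w => dL (fstW w) && de (f (mapW Sum.inl (fstW w))) w,
      Primrec.and.to_comp.comp (hdL.comp hfst)
        (hde.comp (hf.comp ((primrec_mapW _).to_comp.comp hfst)) Computable.id), fun w => ?_⟩
    rw [Bool.and_eq_true, hdLs, hdes, SetLike.mem_coe, SetLike.mem_coe,
      ev_fstW Q.g (Twist.genW gG)]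
    have hin : ∀ (l : Q.L), l.1 = (ev gKW w).1 →
        ev gKW (f (mapW Sum.inl (fstW w))) = jB l := fun l hl => by
      have h1 : ev gKW (mapW Sum.inl (fstW w)) = jA l := by
        rw [ev_inlW, ev_fstW Q.g (Twist.genW gG)]
        exact Prod.ext hl.symm rfl
      rw [hfs _ (h1 ▸ ⟨l, rfl⟩), ← move_true (φ := φ), h1, move_pairIso]
    constructor
    · rintro ⟨h1, h2⟩
      exact ⟨⟨_, h1⟩, (hin ⟨_, h1⟩ rfl).symm.trans h2⟩
    · rintro ⟨l, hl⟩
      have hl1 : l.1 = (ev gKW w).1 := congrArg Prod.fst hl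
      exact ⟨hl1 ▸ l.2, (hin l hl1).trans hl⟩
  have D : Data φ gKW :=
    Data.of_pairs (gen_genP Q.gen (gen_genT DW.gen)) hwpKW hA hB u v hu hφ
  have hRKW := presented_prod Q.gen (gen_genT DW.gen) Q.presented hRW
  have hRE := presented_hnn hRKW u v hu hφ
  let RE : Set (Wd α) → Set (Wd (Option (Q.α ⊕ Option (α ⊕ α)))) := fun X =>
    mapW some '' (mapW Sum.inl '' Q.R ∪ mapW Sum.inr ''
      (mapW some '' (mapW Sum.inl '' X ∪ mapW Sum.inr '' (∅ : Set (Wd α)) ∪ Set.range commRel) ∪
        Set.range fun a => letterRel (Twist.uW a) (Twist.vW a)) ∪ Set.range commRel) ∪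
      Set.range fun j => letterRel (u j) (v j)
  have hRE' : Presented (genT φ gKW) (RE {w | ev gG w = 1}) := hRE
  -- the relations of `G` follow from the others
  have hR0 : Presented (genT φ gKW) (RE ∅) := by
    refine ⟨fun r hr => hRE'.1 r ?_, fun H _ h hh => hRE'.2 H h fun r hr => ?_⟩
    · have hmono : RE ∅ ⊆ RE {w | ev gG w = 1} := by
        simp only [RE]
        gcongr
        exact Set.empty_subset _
      exact hmono hr
    have hk0 : ∀ r ∈ Q.R, ev h (mapW some (mapW Sum.inl r)) = 1 := fun r hr =>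
      hh _ (Or.inl ⟨_, Or.inl (Or.inl ⟨r, hr, rfl⟩), rfl⟩)
    obtain ⟨fK, hfK⟩ := Q.presented.2 H (fun a => h (some (.inl a))) fun r hr => by
      have := hk0 r hr
      simp only [ev_mapW] at this
      exact this
    let hW : Option (α ⊕ α) → H := fun b => h (some (.inr b))
    let hFf : α → H := fun a => hW (some (.inr a))
    let hGf : α → H := fun a => hW (some (.inl a))
    let Z := h none
    let D' := hW none
    have hcKW : ∀ x b, Commute (fK x) (hW b) := fun x b => by
      obtain ⟨w, rfl⟩ := Q.gen x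
      rw [map_ev_eq hfK]
      induction w with
      | nil => exact Commute.one_left _
      | cons p w ih =>
        rw [ev_cons]
        refine Commute.mul_left ?_ ih
        have h1 := (ev_commRel (h ∘ some) (p.1, b)).1
          (by rw [← ev_mapW]; exact hh _ (Or.inl ⟨_, Or.inr ⟨_, rfl⟩, rfl⟩))
        obtain ⟨a, _ | _⟩ := p
        · exact h1.inv_left
        · exact h1
    have hcW : ∀ x w, Commute (fK x) (ev hW w) := fun x w => by
      induction w with
      | nil => exact Commute.one_right _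
      | cons p w ih =>
        rw [ev_cons]
        refine Commute.mul_right ?_ ih
        obtain ⟨a, _ | _⟩ := p
        · exact (hcKW x a).inv_right
        · exact hcKW x a
    have hcGF : ∀ a b, Commute (hGf a) (hFf b) := fun a b => by
      refine (ev_commRel (hW ∘ some) (a, b)).1 ?_
      rw [← ev_mapW, show hW = (h ∘ some) ∘ Sum.inr from rfl, ← ev_mapW, ← ev_mapW]
      exact hh _ (Or.inl ⟨_, Or.inl (Or.inr ⟨_, Or.inl ⟨_, Or.inr ⟨_, rfl⟩, rfl⟩, rfl⟩), rfl⟩)
    have htw : ∀ a, D' * (hGf a * hFf a) = hFf a * D' := fun a => by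
      have h1 : ev hW (letterRel (Twist.uW a) (Twist.vW a)) = 1 := by
        rw [show hW = (h ∘ some) ∘ Sum.inr from rfl, ← ev_mapW, ← ev_mapW]
        exact hh _ (Or.inl ⟨_, Or.inl (Or.inr ⟨_, Or.inr ⟨a, rfl⟩, rfl⟩), rfl⟩)
      rw [ev_letterRel] at h1
      simpa [Twist.uW, Twist.vW, evL, D', hGf, hFf] using h1
    have hZ : ∀ j, Z * fK (ev Q.g (lJ j)) = fK (ev Q.g (lJ j)) * ev hW (vJ j) * Z := fun j => by
      have h1 := (ev_letterRel h (u j) (v j)).1 (hh _ (Or.inr ⟨j, rfl⟩))
      simp only [u, v, ev_append, ev_mapW] at h1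
      rw [map_ev_eq hfK]
      exact h1
    let Δ : List (Fin k) → H := fun w => ev hFf (w.map e) * D' * (ev hFf (w.map e))⁻¹
    let T : ℕ → H := fun z => fK (Q.emb (tz (z : ℤ)))
    have hFW : ∀ w : Wd α, ev hFf w = ev hW (mapW (fun a => some (Sum.inr a)) w) := fun w => by
      rw [ev_mapW]; rfl
    have hcΔ : ∀ x w, Commute (fK x) (Δ w) := fun x w => by
      have hc : Commute (fK x) (ev hFf (w.map e)) := by rw [hFW]; exact hcW x _
      exact (hc.mul_right (hcKW x none)).mul_right hc.inv_right
    have hstep : ∀ p ∈ M.tbl, ∀ j, ∃ s : H, Z * s = s * (p.2.elim 1 fun i => evL hFf (e i)) * Z ∧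
        (∀ w, Commute s (Δ w)) ∧ s * T (p.1.src j) = T (p.1.tgt j) * s ∧
        Commute s (p.2.elim 1 fun i => evL hFf (e i)) := by
      intro p hp j
      have hp' := hp
      obtain ⟨i₀, hi₀⟩ := List.mem_iff_get.1 hp'
      let i : Fin tbl.length := ⟨i₀, by simpa [tbl] using i₀.isLt⟩
      have hi : (tbl.get i).1 = p.1 := by simp [tbl, i, ← hi₀]
      have hvi : ev hW (vl i) = p.2.elim 1 fun i => evL hFf (e i) := by
        have : M.tbl.get ⟨i, by simp [i]⟩ = p := hi₀
        simp only [vl, this]
        rcases p.2 with - | o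
        · simp
        · obtain ⟨a, b⟩ := e o
          cases b <;> simp [lwd, evL, hFf, hW]
      refine ⟨fK (τ i), ?_, fun w => hcΔ _ w, ?_, ?_⟩
      · have := hZ (.inr (.inl i))
        rw [show ev Q.g (lJ (.inr (.inl i))) = τ i from hwτ i] at this
        rw [← hvi]
        exact this
      · simp only [T, ← map_mul]
        rw [← hi, htz]
      · rw [← hvi]; exact hcW _ _
    have hinv : ∀ z w, Conn M.tbl M.z₀ z w → Z * T z = T z * Δ w * Z := by
      intro z w hc
      induction hc with
      | base =>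
        have := hZ (.inl false)
        rw [hl0] at this
        simpa [T, Δ, vJ, evL, hW, D'] using this
      | @fwd a j w hp _ ih =>
        obtain ⟨s, hs, hsΔ, hsT, -⟩ := hstep _ hp j
        simp only [Option.elim, mul_one] at hs
        rw [show T (a.tgt j) = s * T (a.src j) * s⁻¹ from eq_mul_inv_of_mul_eq hsT.symm]
        have hZs : Z * s⁻¹ = s⁻¹ * Z := (Commute.inv_right hs).eq
        calc Z * (s * T (a.src j) * s⁻¹) = s * (Z * T (a.src j)) * s⁻¹ := by
              simp only [← mul_assoc]; rw [hs]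
          _ = s * T (a.src j) * Δ w * (Z * s⁻¹) := by rw [ih]; simp only [mul_assoc]
          _ = s * T (a.src j) * (Δ w * s⁻¹) * Z := by rw [hZs]; simp only [mul_assoc]
          _ = s * T (a.src j) * (s⁻¹ * Δ w) * Z := by rw [((hsΔ w).inv_left.eq)]
          _ = s * T (a.src j) * s⁻¹ * Δ w * Z := by simp only [mul_assoc]
      | @bwd a j w hp _ ih =>
        obtain ⟨s, hs, hsΔ, hsT, -⟩ := hstep _ hp j
        simp only [Option.elim, mul_one] at hs
        rw [show T (a.src j) = s⁻¹ * (T (a.tgt j) * s) from eq_inv_mul_of_mul_eq hsT]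
        have hZs : Z * s⁻¹ = s⁻¹ * Z := (Commute.inv_right hs).eq
        calc Z * (s⁻¹ * (T (a.tgt j) * s)) = s⁻¹ * (Z * T (a.tgt j)) * s := by
              simp only [← mul_assoc]; rw [hZs]
          _ = s⁻¹ * T (a.tgt j) * Δ w * (Z * s) := by rw [ih]; simp only [mul_assoc]
          _ = s⁻¹ * T (a.tgt j) * (Δ w * s) * Z := by rw [hs]; simp only [mul_assoc]
          _ = s⁻¹ * T (a.tgt j) * (s * Δ w) * Z := by rw [(hsΔ w).eq]
          _ = s⁻¹ * (T (a.tgt j) * s) * Δ w * Z := by simp only [mul_assoc]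
      | @push a j i w hp _ ih =>
        obtain ⟨s, hs, hsΔ, hsT, hsf⟩ := hstep _ hp j
        simp only [Option.elim] at hs hsf
        set f := evL hFf (e i) with hf
        have hΔ : Δ (i :: w) = f * Δ w * f⁻¹ := by
          simp [Δ, hf, mul_assoc]
        have hfT : Commute (T (a.src j)) f := by
          have : f = ev hW (lwd (e i)) := by
            rw [hf]; obtain ⟨x, b⟩ := e i; cases b <;> simp [lwd, evL, hFf, hW]
          rw [this]; exact hcW _ _
        have hZs : Z * s⁻¹ = f⁻¹ * s⁻¹ * Z := by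
          rw [eq_comm, ← mul_inv_rev, inv_mul_eq_iff_eq_mul, ← mul_assoc, eq_mul_inv_iff_mul_eq,
            hs]
        have hcs : Commute s⁻¹ (f * Δ w * f⁻¹) :=
          ((hsf.mul_right (hsΔ w)).mul_right hsf.inv_right).inv_left
        rw [show T (a.tgt j) = s * T (a.src j) * s⁻¹ from eq_mul_inv_of_mul_eq hsT.symm, hΔ]
        calc Z * (s * T (a.src j) * s⁻¹) = s * f * (Z * T (a.src j)) * s⁻¹ := by
              simp only [← mul_assoc]; rw [hs]
          _ = s * (f * T (a.src j)) * Δ w * (Z * s⁻¹) := by rw [ih]; simp only [mul_assoc]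
          _ = s * T (a.src j) * (f * Δ w * f⁻¹ * s⁻¹) * Z := by
              rw [hZs, ← hfT.eq]; simp only [mul_assoc]
          _ = s * T (a.src j) * s⁻¹ * (f * Δ w * f⁻¹) * Z := by
              rw [← hcs.eq]; simp only [mul_assoc]
    -- the relators of `G`
    have hGrel : ∀ w : Wd α, ev gG w = 1 → ev hGf w = 1 := by
      intro w hw
      let w' := w.map e.symm
      have hw' : w'.map e = w := by simp [w', Function.comp_def]
      have hd : dec (code w') = true := by
        show dG ((dw (code w')).map e) = true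
        rw [hdwc, hw']
        exact (hdGs w).2 hw
      have h1 := hinv _ _ (M.accepts w' hd)
      have h2 := hZ (.inl true)
      rw [hl0] at h2
      have h3 : ev hFf w * D' = D' * ev hFf w := by
        have : Δ w' = D' := by
          have h4 : T M.z₁ * Δ w' * Z = T M.z₁ * D' * Z := by
            rw [← h1]
            simpa [T, vJ, evL, hW, D'] using h2
          exact mul_left_cancel (mul_right_cancel h4)
        simp only [Δ, hw'] at this
        exact mul_inv_eq_iff_eq_mul.1 this
      have hp : ∀ x : Wd α, ev (fun a => hGf a * hFf a) x = ev hGf x * ev hFf x := by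
        intro x
        have hc2 : ∀ a y, Commute (hFf a) (ev hGf y) := fun a y => by
          induction y with
          | nil => exact Commute.one_right _
          | cons p y ih =>
            rw [ev_cons]
            refine Commute.mul_right ?_ ih
            obtain ⟨b, _ | _⟩ := p
            · exact (hcGF b a).symm.inv_right
            · exact (hcGF b a).symm
        induction x with
        | nil => simp
        | cons p x ih =>
          rw [ev_cons, ev_cons, ev_cons, ih]
          obtain ⟨a, _ | _⟩ := p <;> simp only [evL, cond]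
          · have h5 := (hc2 a x).inv_left.eq
            rw [mul_inv_rev, mul_assoc, mul_assoc,
              ← mul_assoc (hFf a)⁻¹, ((hcGF a a).symm.inv_left.inv_right).eq]
            rw [mul_assoc, ← mul_assoc (hFf a)⁻¹, h5]
            simp only [mul_assoc]
          · have h5 := (hc2 a x).eq
            rw [mul_assoc, ← mul_assoc (hFf a), h5]
            simp only [mul_assoc]
      have hconj : ev (fun a => hGf a * hFf a) w = D'⁻¹ * ev hFf w * D' := by
        have := map_ev hFf (MulAut.conj D'⁻¹).toMonoidHom w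
        simp only [MulEquiv.coe_toMonoidHom, MulAut.conj_apply, inv_inv] at this
        rw [this]
        refine congrArg (fun f => ev f w) (funext fun a => ?_)
        simp [mul_assoc, ← htw]
      rw [hp, mul_assoc, h3, inv_mul_cancel_left] at hconj
      simpa using hconj
    rcases hr with ⟨_, ((hr | ⟨_, (⟨_, ((⟨w, hw, rfl⟩ | hr) | hr), rfl⟩ | hr), rfl⟩) | hr), rfl⟩ | hr
    · exact hh _ (Or.inl ⟨_, Or.inl (Or.inl hr), rfl⟩)
    · simp only [ev_mapW]
      exact hGrel w hw
    · exact hh _ (Or.inl ⟨_, Or.inl (Or.inr ⟨_, Or.inl ⟨_, Or.inl (Or.inr hr), rfl⟩, rfl⟩), rfl⟩)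
    · exact hh _ (Or.inl ⟨_, Or.inl (Or.inr ⟨_, Or.inl ⟨_, Or.inr hr, rfl⟩, rfl⟩), rfl⟩)
    · exact hh _ (Or.inl ⟨_, Or.inl (Or.inr ⟨_, Or.inr hr, rfl⟩), rfl⟩)
    · exact hh _ (Or.inl ⟨_, Or.inr hr, rfl⟩)
    · exact hh _ (Or.inr hr)
  have hfin : (RE ∅).Finite :=
    (((Q.finite_R.image _).union (((((Set.finite_empty.image _).union
      (Set.finite_empty.image _)).union (Set.finite_range _)).image _).union
        (Set.finite_range _) |>.image _)).union (Set.finite_range _) |>.image _).union
      (Set.finite_range _)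
  have hgenE := gen_genT (φ := φ) D.gen
  refine ⟨HNNExtension (Q.K × Twist.W gG) jA.range jB.range φ, inferInstance,
    isFinitelyPresented_of_presented hgenE hR0 hfin, ?_, ?_, ?_⟩
  · obtain ⟨N, ⟨e'⟩⟩ := Finite.exists_equiv_fin (Option (Q.α ⊕ Option (α ⊕ α)))
    obtain ⟨d, hd, hds⟩ := decWP_genT D
    refine ⟨N, genT φ gKW ∘ e'.symm, closure_of_gen _ fun x => ?_,
      fun w => d (mapW e'.symm w), hd.comp (primrec_mapW _).to_comp, fun w => ?_⟩
    · obtain ⟨w, rfl⟩ := hgenE x
      exact ⟨mapW e' w, by rw [ev_mapW]; simp [Function.comp_def]⟩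
    · rw [hds, ev_mapW, Set.mem_singleton_iff, ev_eq_lift]
  · have : Infinite Base := Infinite.of_injective tz fun a b h =>
      FreeGroup.of_injective (SemidirectProduct.inl_injective h)
    exact Infinite.of_injective (fun x : Base => HNNExtension.of ((Q.emb x, 1) : Q.K × Twist.W gG))
      fun a b h => Q.emb_injective (congrArg Prod.fst (HNNExtension.of_injective (φ := φ) h) :)
  · refine ⟨HNNExtension.of.comp ((MonoidHom.inr Q.K (Twist.W gG)).comp
      (HNNExtension.of.comp (MonoidHom.inl G (FreeGroup α)))), fun a b h => ?_⟩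
    have h1 := congrArg Prod.snd (HNNExtension.of_injective (φ := φ) h)
    exact congrArg Prod.fst (HNNExtension.of_injective (φ := Twist.phi gG) h1)

end Final

/-- **Clapham's theorem.** -/
theorem clapham : BH.ClaphamStatement := by
  intro G _ hG
  obtain ⟨n, g, hg, d, hd, hds⟩ := hG
  let gG : Option (Fin n) → G := fun o => o.elim 1 g
  refine clapham_core (gG := gG) ?_ ?_
  · refine gen_of_closure _ (eq_top_iff.2 (hg.ge.trans (Subgroup.closure_mono ?_)))
    rintro _ ⟨i, rfl⟩
    exact ⟨some i, rfl⟩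
  · let u : Option (Fin n) → Wd (Fin n) := fun o => o.elim [] fun i => [(i, true)]
    refine ⟨fun w => d (subst u w), hd.comp (primrec_subst u).to_comp, fun w => ?_⟩
    rw [hds, Set.mem_singleton_iff, ← ev_eq_lift, ev_subst]
    refine Iff.of_eq (congrArg (fun f => ev f w = 1) (funext fun o => ?_))
    rcases o with - | i
    · rfl
    · exact ev_single g i

end Vale.Agent.P193.Clapham

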