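import Vale.Agent.P193.Clapham.Britton

/-!
# Presentations by generators and relator words; direct products
-/

namespace Vale.Agent.P193.Clapham

variable {α β : Type} {G H : Type} [Group G] [Group H]

/-- Rename the letters of a word. -/
def mapW (f : α → β) (w : Wd α) : Wd β := w.map fun a => (f a.1, a.2)

@[simp] theorem ev_mapW (g : β → G) (f : α → β) (w : Wd α) :
    ev g (mapW f w) = ev (g ∘ f) w := by
  induction w with
  | nil => rfl
  | cons a w ih =>
    rw [show mapW f (a :: w) = (f a.1, a.2) :: mapW f w from rfl, ev_cons, ev_cons, ih]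
    rfl

theorem primrec_mapW [Primcodable α] [Primcodable β] [Finite α] (f : α → β) :
    Primrec (mapW f) :=
  Primrec.list_map Primrec.id ((Primrec.dom_finite fun a : α × Bool => (f a.1, a.2)).comp
    Primrec.snd).to₂

theorem hom_eq_of_gen {g : α → G} (hg : Gen g) {f f' : G →* H}
    (h : ∀ a, f (g a) = f' (g a)) : f = f' := by
  refine MonoidHom.ext fun x => ?_
  obtain ⟨w, rfl⟩ := hg x
  rw [map_ev, map_ev, show f ∘ g = f' ∘ g from funext h]

theorem map_ev_eq {g : α → G} {h : α → H} {f : G →* H} (hf : ∀ a, f (g a) = h a) (w : Wd α) :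
    f (ev g w) = ev h w := by
  rw [map_ev, show f ∘ g = h from funext hf]

/-- `g` satisfies `R` and any interpretation satisfying `R` extends to a homomorphism. -/
def Presented (g : α → G) (R : Set (Wd α)) : Prop :=
  (∀ r ∈ R, ev g r = 1) ∧
    ∀ (K : Type) [Group K] (h : α → K), (∀ r ∈ R, ev h r = 1) → ∃ f : G →* K, ∀ a, f (g a) = h a

theorem presented_of_gen {g : α → G} (hg : Gen g) :
    Presented g {w | ev g w = 1} := by
  refine ⟨fun r hr => hr, fun K _ h hh => ?_⟩
  choose wd hwd using hg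
  have key : ∀ v w, ev g v = ev g w → ev h v = ev h w := fun v w e => by
    have := hh (invW v ++ w) (by simp [e])
    simpa [inv_mul_eq_one] using this
  refine ⟨MonoidHom.mk' (fun x => ev h (wd x)) fun x y => ?_, fun a => ?_⟩
  · rw [← ev_append]
    exact key _ _ (by simp [hwd])
  · show ev h (wd (g a)) = h a
    rw [← ev_single h a]
    exact key _ _ (by rw [hwd, ev_single])

theorem presented_free : Presented (FreeGroup.of (α := α)) ∅ :=
  ⟨by simp, fun _ _ h _ => ⟨FreeGroup.lift h, fun a => by simp⟩⟩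

theorem isFinitelyPresented_of_presented [Finite α] {g : α → G} (hg : Gen g) {R : Set (Wd α)}
    (hR : Presented g R) (hfin : R.Finite) : Group.IsFinitelyPresented G := by
  obtain ⟨n, ⟨e⟩⟩ := Finite.exists_equiv_fin α
  refine ⟨n, FreeGroup.lift (g ∘ e.symm), fun x => ?_,
    (fun r => FreeGroup.mk (mapW e r)) '' R, hfin.image _, ?_⟩
  · obtain ⟨w, rfl⟩ := hg x
    refine ⟨FreeGroup.mk (mapW e w), ?_⟩
    rw [← ev_eq_lift, ev_mapW]
    simp [Function.comp_def]
  refine le_antisymm (Subgroup.normalClosure_le_normal ?_) fun x hx => ?_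
  · rintro _ ⟨r, hr, rfl⟩
    rw [SetLike.mem_coe, MonoidHom.mem_ker, ← ev_eq_lift, ev_mapW]
    simpa [Function.comp_def] using hR.1 r hr
  set N := Subgroup.normalClosure ((fun r => FreeGroup.mk (mapW e r)) '' R) with hN
  obtain ⟨f, hf⟩ := hR.2 (FreeGroup (Fin n) ⧸ N)
    (fun a => QuotientGroup.mk' N (FreeGroup.of (e a))) fun r hr => by
      rw [show (fun a => QuotientGroup.mk' N (FreeGroup.of (e a))) =
        (QuotientGroup.mk' N ∘ FreeGroup.of) ∘ e from rfl, ← ev_mapW, ← map_ev, ev_of]
      exact (QuotientGroup.eq_one_iff _).2 (Subgroup.subset_normalClosure ⟨r, hr, rfl⟩)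
  have hc : f.comp (FreeGroup.lift (g ∘ e.symm)) = QuotientGroup.mk' N :=
    FreeGroup.ext_hom _ _ fun i => by simp [hf]
  refine (QuotientGroup.eq_one_iff x).1 ?_
  have := DFunLike.congr_fun hc x
  simp only [MonoidHom.comp_apply, MonoidHom.mem_ker.1 hx, map_one] at this
  exact this.symm

section HNN

variable {A B : Subgroup G} {φ : A ≃* B}

theorem ev_genT_some (g : α → G) (w : Wd α) :
    ev (genT φ g) (mapW some w) = HNNExtension.of (ev g w) := by
  rw [ev_mapW, map_ev]; rfl

/-- The relators of one stable letter. -/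
def letterRel (u v : Wd α) : Wd (Option α) :=
  [(none, true)] ++ mapW some u ++ [(none, false)] ++ invW (mapW some v)

theorem ev_letterRel {K : Type} [Group K] (h : Option α → K) (u v : Wd α) :
    ev h (letterRel u v) = 1 ↔
      h none * ev (h ∘ some) u = ev (h ∘ some) v * h none := by
  have e : ev h (letterRel u v) =
      h none * ev (h ∘ some) u * (h none)⁻¹ * (ev (h ∘ some) v)⁻¹ := by
    simp [letterRel, evL, mul_assoc]
  rw [e, mul_inv_eq_one, mul_inv_eq_iff_eq_mul]

theorem presented_hnn {J : Type} {g : α → G} {R : Set (Wd α)} (hR : Presented g R)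
    (u v : J → Wd α) (hu : Subgroup.closure (Set.range fun j => ev g (u j)) = A)
    (hφ : ∀ j, ∀ h : ev g (u j) ∈ A, (φ ⟨_, h⟩ : G) = ev g (v j)) :
    Presented (genT φ g) (mapW some '' R ∪ Set.range fun j => letterRel (u j) (v j)) := by
  have hmem : ∀ j, ev g (u j) ∈ A := fun j =>
    hu ▸ Subgroup.subset_closure ⟨j, rfl⟩
  constructor
  · rintro r (⟨s, hs, rfl⟩ | ⟨j, rfl⟩)
    · rw [ev_genT_some, hR.1 s hs, map_one]
    · rw [ev_letterRel]
      have h1 : ∀ w, ev (genT φ g ∘ some) w = HNNExtension.of (ev g w) := fun w => by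
        rw [← ev_mapW, ev_genT_some]
      rw [h1, h1, ← hφ j (hmem j)]
      exact HNNExtension.t_mul_of (φ := φ) ⟨_, hmem j⟩
  · intro K _ h hh
    obtain ⟨f, hf⟩ := hR.2 K (h ∘ some) fun r hr => by
      rw [← ev_mapW]; exact hh _ (Or.inl ⟨r, hr, rfl⟩)
    have key : ∀ a : A, h none * f a = f (φ a) * h none := by
      suffices H : ∀ x (hx : x ∈ A), h none * f x = f (φ ⟨x, hx⟩) * h none from
        fun a => H a.1 a.2
      intro x hx
      have hx' : x ∈ Subgroup.closure (Set.range fun j => ev g (u j)) := hu.symm ▸ hx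
      induction hx' using Subgroup.closure_induction with
      | mem y hy =>
        obtain ⟨j, rfl⟩ := hy
        rw [hφ j, map_ev_eq hf, map_ev_eq hf, ← ev_letterRel]
        exact hh _ (Or.inr ⟨j, rfl⟩)
      | one => simp [show (⟨1, hx⟩ : A) = 1 from rfl]
      | mul y z hy hz ihy ihz =>
        have hyA : y ∈ A := hu ▸ hy
        have hzA : z ∈ A := hu ▸ hz
        rw [show (⟨y * z, hx⟩ : A) = ⟨y, hyA⟩ * ⟨z, hzA⟩ from rfl, map_mul, map_mul,
          Subgroup.coe_mul, map_mul, ← mul_assoc, ihy hyA, mul_assoc, ihz hzA, mul_assoc]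
      | inv y hy ihy =>
        have hyA : y ∈ A := hu ▸ hy
        rw [show (⟨y⁻¹, hx⟩ : A) = ⟨y, hyA⟩⁻¹ from rfl, map_inv, map_inv, Subgroup.coe_inv,
          map_inv, mul_inv_eq_iff_eq_mul, mul_assoc, eq_inv_mul_iff_mul_eq]
        exact (ihy hyA).symm
    exact ⟨HNNExtension.lift f (h none) key, fun a => by
      rcases a with - | a
      · exact HNNExtension.lift_t _ _ _
      · exact (HNNExtension.lift_of _ _ _ _).trans (hf a)⟩

end HNN

section Product

/-- Generators of a product. -/
def genP (g : α → G) (g' : β → H) : α ⊕ β → G × H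
  | .inl a => (g a, 1)
  | .inr b => (1, g' b)

/-- The first component of a word. -/
def fstW : Wd (α ⊕ β) → Wd α := subst (Sum.elim (fun a => [(a, true)]) fun _ => [])

/-- The second component of a word. -/
def sndW : Wd (α ⊕ β) → Wd β := subst (Sum.elim (fun _ => []) fun b => [(b, true)])

variable (g : α → G) (g' : β → H)

theorem ev_fstW (w : Wd (α ⊕ β)) : ev g (fstW w) = (ev (genP g g') w).1 := by
  rw [fstW, ev_subst, ← MonoidHom.coe_fst, map_ev]
  congr 1
  funext x
  rcases x with a | b <;> simp [genP, evL]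

theorem ev_sndW (w : Wd (α ⊕ β)) : ev g' (sndW w) = (ev (genP g g') w).2 := by
  rw [sndW, ev_subst, ← MonoidHom.coe_snd, map_ev]
  congr 1
  funext x
  rcases x with a | b <;> simp [genP, evL]

theorem ev_inlW (w : Wd α) : ev (genP g g') (mapW Sum.inl w) = (ev g w, 1) := by
  rw [ev_mapW, show ((ev g w, 1) : G × H) = MonoidHom.inl G H (ev g w) from rfl, map_ev]; rfl

theorem ev_inrW (w : Wd β) : ev (genP g g') (mapW Sum.inr w) = (1, ev g' w) := by
  rw [ev_mapW, show ((1, ev g' w) : G × H) = MonoidHom.inr G H (ev g' w) from rfl, map_ev]; rfl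

variable {g g'}

theorem gen_genP (hg : Gen g) (hg' : Gen g') : Gen (genP g g') := by
  rintro ⟨x, y⟩
  obtain ⟨v, rfl⟩ := hg x
  obtain ⟨w, rfl⟩ := hg' y
  exact ⟨mapW Sum.inl v ++ mapW Sum.inr w, by rw [ev_append, ev_inlW, ev_inrW]; simp⟩

theorem decIn_prod [Primcodable α] [Primcodable β] [Finite α] [Finite β] {S : Set G} {T : Set H}
    (hS : DecIn g S) (hT : DecIn g' T) : DecIn (genP g g') (S ×ˢ T) := by
  have h1 : DecIn (genP g g') {x : G × H | x.1 ∈ S} :=
    hS.comap (f := fstW) (primrec_subst _).to_comp fun w => by rw [ev_fstW g g']; rfl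
  have h2 : DecIn (genP g g') {x : G × H | x.2 ∈ T} :=
    hT.comap (f := sndW) (primrec_subst _).to_comp fun w => by rw [ev_sndW g g']; rfl
  exact h1.inter h2

theorem decWP_genP [Primcodable α] [Primcodable β] [Finite α] [Finite β] (h : DecWP g)
    (h' : DecWP g') : DecWP (genP g g') :=
  (decIn_prod h h').congr fun w => by simp [Prod.ext_iff]

/-- The commutation relators. -/
def commRel (p : α × β) : Wd (α ⊕ β) :=
  [(.inl p.1, true), (.inr p.2, true), (.inl p.1, false), (.inr p.2, false)]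

theorem ev_commRel {K : Type} [Group K] (h : α ⊕ β → K) (p : α × β) :
    ev h (commRel p) = 1 ↔ Commute (h (.inl p.1)) (h (.inr p.2)) := by
  have e : ev h (commRel p) = h (.inl p.1) * h (.inr p.2) * (h (.inl p.1))⁻¹ * (h (.inr p.2))⁻¹ := by
    simp [commRel, evL, mul_assoc]
  rw [e, mul_inv_eq_one, mul_inv_eq_iff_eq_mul]
  rfl

theorem presented_prod (hg : Gen g) (hg' : Gen g') {R : Set (Wd α)} {R' : Set (Wd β)}
    (hR : Presented g R) (hR' : Presented g' R') :
    Presented (genP g g') (mapW Sum.inl '' R ∪ mapW Sum.inr '' R' ∪ Set.range commRel) := by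
  constructor
  · rintro r ((⟨s, hs, rfl⟩ | ⟨s, hs, rfl⟩) | ⟨p, rfl⟩)
    · rw [ev_inlW, hR.1 s hs]; rfl
    · rw [ev_inrW, hR'.1 s hs]; rfl
    · rw [ev_commRel]
      exact Prod.ext (by simp [genP]) (by simp [genP])
  · intro K _ h hh
    obtain ⟨f, hf⟩ := hR.2 K (h ∘ Sum.inl) fun r hr => by
      rw [← ev_mapW]; exact hh _ (Or.inl (Or.inl ⟨r, hr, rfl⟩))
    obtain ⟨f', hf'⟩ := hR'.2 K (h ∘ Sum.inr) fun r hr => by
      rw [← ev_mapW]; exact hh _ (Or.inl (Or.inr ⟨r, hr, rfl⟩))
    have hc : ∀ a b, Commute (f (g a)) (f' (g' b)) := fun a b => by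
      rw [hf, hf']
      exact (ev_commRel h (a, b)).1 (hh _ (Or.inr ⟨(a, b), rfl⟩))
    have hc1 : ∀ x b, Commute (f x) (f' (g' b)) := fun x b => by
      obtain ⟨w, rfl⟩ := hg x
      induction w with
      | nil => simp
      | cons p w ih =>
        rw [ev_cons, map_mul]
        obtain ⟨a, _ | _⟩ := p
        · exact ((by simpa [evL] using (hc a b).inv_left : Commute _ _)).mul_left ih
        · exact ((by simpa [evL] using hc a b : Commute _ _)).mul_left ih
    have hc2 : ∀ x y, Commute (f x) (f' y) := fun x y => by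
      obtain ⟨w, rfl⟩ := hg' y
      induction w with
      | nil => simp
      | cons p w ih =>
        rw [ev_cons, map_mul]
        obtain ⟨b, _ | _⟩ := p
        · exact ((by simpa [evL] using (hc1 x b).inv_right : Commute _ _)).mul_right ih
        · exact ((by simpa [evL] using hc1 x b : Commute _ _)).mul_right ih
    refine ⟨f.noncommCoprod f' hc2, ?_⟩
    rintro (a | b)
    · simpa [genP] using hf a
    · simpa [genP] using hf' b

end Product

end Vale.Agent.P193.Clapham
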