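import Mathlib

/-!
# Words, decidable subsets and searches

A word over `α` is a `List (α × Bool)`; `ev g w` is its value for an interpretation `g` of letters.
-/

namespace Vale.Agent.P193.Clapham

/-- Words over `α`. -/
abbrev Wd (α : Type) : Type := List (α × Bool)

variable {α β : Type}

section Eval

variable {G H : Type} [Group G] [Group H] (g : α → G)

/-- The value of a letter. -/
def evL (a : α × Bool) : G := cond a.2 (g a.1) (g a.1)⁻¹

/-- The value of a word. -/
def ev (w : Wd α) : G := (w.map (evL g)).prod

@[simp] theorem ev_nil : ev g [] = 1 := rfl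

@[simp] theorem ev_cons (a : α × Bool) (w : Wd α) : ev g (a :: w) = evL g a * ev g w := by
  simp [ev]

@[simp] theorem ev_append (v w : Wd α) : ev g (v ++ w) = ev g v * ev g w := by
  simp [ev]

theorem ev_single (a : α) : ev g [(a, true)] = g a := by simp [evL]

theorem ev_eq_lift (w : Wd α) : ev g w = FreeGroup.lift g (FreeGroup.mk w) := by
  rw [FreeGroup.lift_mk]; rfl

/-- The inverse word. -/
def invW (w : Wd α) : Wd α := (w.map fun a => (a.1, !a.2)).reverse

@[simp] theorem ev_invW (w : Wd α) : ev g (invW w) = (ev g w)⁻¹ := by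
  induction w with
  | nil => simp [invW]
  | cons a w ih =>
    have e : invW (a :: w) = invW w ++ [(a.1, !a.2)] := by simp [invW]
    rw [e, ev_append, ih]
    obtain ⟨a, b⟩ := a
    cases b <;> simp [evL]

theorem map_ev (f : G →* H) (w : Wd α) : f (ev g w) = ev (f ∘ g) w := by
  induction w with
  | nil => simp
  | cons a w ih =>
    obtain ⟨a, b⟩ := a
    cases b <;> simp [evL, ih]

/-- Replace each letter by a word. -/
def subst (u : β → Wd α) (w : Wd β) : Wd α :=
  w.flatMap fun a => cond a.2 (u a.1) (invW (u a.1))

@[simp] theorem ev_subst (u : β → Wd α) (w : Wd β) :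
    ev g (subst u w) = ev (fun j => ev g (u j)) w := by
  induction w with
  | nil => simp [subst]
  | cons a w ih =>
    have e : subst u (a :: w) = cond a.2 (u a.1) (invW (u a.1)) ++ subst u w := rfl
    rw [e, ev_append, ih]
    obtain ⟨a, b⟩ := a
    cases b <;> simp [evL]

theorem ev_mem_closure (w : Wd α) : ev g w ∈ Subgroup.closure (Set.range g) := by
  induction w with
  | nil => simp
  | cons a w ih =>
    obtain ⟨a, b⟩ := a
    cases b
    · simpa [evL] using mul_mem (inv_mem (Subgroup.subset_closure (Set.mem_range_self a))) ih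
    · simpa [evL] using mul_mem (Subgroup.subset_closure (Set.mem_range_self a)) ih

theorem exists_word {x : G} (hx : x ∈ Subgroup.closure (Set.range g)) :
    ∃ w, ev g w = x := by
  induction hx using Subgroup.closure_induction with
  | mem x hx =>
    obtain ⟨a, rfl⟩ := hx
    exact ⟨[(a, true)], ev_single g a⟩
  | one => exact ⟨[], rfl⟩
  | mul x y _ _ hx hy =>
    obtain ⟨v, rfl⟩ := hx
    obtain ⟨w, rfl⟩ := hy
    exact ⟨v ++ w, ev_append g v w⟩
  | inv x _ hx =>
    obtain ⟨v, rfl⟩ := hx
    exact ⟨invW v, ev_invW g v⟩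

/-- Every element is the value of a word. -/
def Gen : Prop := ∀ x : G, ∃ w, ev g w = x

theorem gen_of_closure (h : Subgroup.closure (Set.range g) = ⊤) : Gen g :=
  fun _ => exists_word g (h ▸ Subgroup.mem_top _)

theorem closure_of_gen (h : Gen g) : Subgroup.closure (Set.range g) = ⊤ := by
  refine (Subgroup.eq_top_iff' _).2 fun x => ?_
  obtain ⟨w, rfl⟩ := h x
  exact ev_mem_closure g w

end Eval

section Computability

variable {γ δ : Type} [Primcodable α] [Primcodable β] [Primcodable γ] [Primcodable δ]

theorem primrec_invW : Primrec (invW : Wd α → Wd α) :=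
  Primrec.list_reverse.comp <| Primrec.list_map .id
    (Primrec.pair (Primrec.fst.comp Primrec.snd)
      (Primrec.not.comp (Primrec.snd.comp Primrec.snd))).to₂

theorem primrec_subst [Finite β] (u : β → Wd α) : Primrec (subst u) :=
  Primrec.list_flatMap .id ((Primrec.dom_finite
    (fun a : β × Bool => cond a.2 (u a.1) (invW (u a.1)))).comp Primrec.snd).to₂

/-- A left fold with a computable step is computable. -/
theorem computable_foldl {f : α → List β} {i : α → γ} {h : γ → β → γ}
    (hf : Computable f) (hi : Computable i) (hh : Computable₂ h) :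
    Computable fun a => (f a).foldl h (i a) := by
  have hstep : Computable₂ fun (a : α) (p : ℕ × γ) =>
      Option.casesOn (motive := fun _ => γ) ((f a)[p.1]?) p.2 (fun b => h p.2 b) := by
    refine Computable.to₂ (Computable.option_casesOn
      (o := fun x : α × ℕ × γ => (f x.1)[x.2.1]?) (f := fun x => x.2.2)
      (g := fun x b => h x.2.2 b) ?_ ?_ ?_)
    · exact Computable.list_getElem?.comp (hf.comp Computable.fst)
        (Computable.fst.comp Computable.snd)
    · exact Computable.snd.comp Computable.snd
    · exact (hh.comp (Computable.snd.comp (Computable.snd.comp Computable.fst))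
        Computable.snd).to₂
  refine (Computable.nat_rec (Computable.list_length.comp hf) hi hstep).of_eq fun a => ?_
  suffices H : ∀ n ≤ (f a).length,
      Nat.rec (motive := fun _ => γ) (i a) (fun y IH => Option.casesOn (motive := fun _ => γ)
        ((f a)[y]?) IH (fun b => h IH b)) n = ((f a).take n).foldl h (i a) by
    rw [H _ le_rfl, List.take_length]
  intro n
  induction n with
  | zero => simp
  | succ n ih =>
    intro hn
    have hlt : n < (f a).length := hn
    rw [show ((f a).take (n + 1)) = (f a).take n ++ [(f a)[n]] from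
      (List.take_append_getElem hlt).symm, List.foldl_append]
    simp only [List.foldl_cons, List.foldl_nil, ← ih (le_of_lt hlt)]
    simp [List.getElem?_eq_getElem hlt]

/-- Search: if for each input some witness passes a computable test, one can be computed. -/
theorem computable_search {p : α → β → Bool} (hp : Computable₂ p)
    (hex : ∀ a, ∃ b, p a b = true) :
    ∃ f : α → β, Computable f ∧ ∀ a, p a (f a) = true := by
  classical
  let q : α → ℕ → Bool := fun a n =>
    Option.casesOn (motive := fun _ => Bool) (Encodable.decode (α := β) n) false (p a)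
  have hq : Computable₂ q := Computable.to₂ <| Computable.option_casesOn
    (Computable.decode.comp Computable.snd) (Computable.const false)
    (hp.comp (Computable.fst.comp Computable.fst) Computable.snd).to₂
  have hex' : ∀ a, ∃ n, q a n = true := fun a => by
    obtain ⟨b, hb⟩ := hex a
    exact ⟨Encodable.encode b, by simp [q, hb]⟩
  have hr : Partrec fun a => Nat.rfind (fun n => Part.some (q a n)) := Partrec.rfind hq.partrec₂
  have hfind : Computable fun a => Nat.find (hex' a) :=
    hr.of_eq fun a => Part.eq_some_iff.2 <| Nat.mem_rfind.2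
      ⟨by simpa using Nat.find_spec (hex' a), fun {m} hm => by
        simpa using Nat.find_min (hex' a) hm⟩
  have hdec : Computable fun a => Encodable.decode (α := β) (Nat.find (hex' a)) :=
    Computable.decode.comp hfind
  have hval : ∀ a, ∃ b, Encodable.decode (α := β) (Nat.find (hex' a)) = some b ∧
      p a b = true := fun a => by
    have := Nat.find_spec (hex' a)
    simp only [q] at this
    revert this
    cases Encodable.decode (α := β) (Nat.find (hex' a)) with
    | none => simp
    | some b => exact fun hb => ⟨b, rfl, hb⟩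
  choose f hf hpf using hval
  exact ⟨f, hdec.ofOption.of_eq fun a => by simp [hf a], hpf⟩

end Computability

section DecIn

variable [Primcodable α] [Primcodable β] {G H : Type} [Group G] [Group H]

/-- Membership in `S` of the value of a word is computable. -/
def DecIn (g : α → G) (S : Set G) : Prop :=
  ∃ d : Wd α → Bool, Computable d ∧ ∀ w, d w = true ↔ ev g w ∈ S

theorem DecIn.congr {g : α → G} {S T : Set G} (h : DecIn g S)
    (e : ∀ w, ev g w ∈ S ↔ ev g w ∈ T) : DecIn g T := by
  obtain ⟨d, hd, hs⟩ := h
  exact ⟨d, hd, fun w => (hs w).trans (e w)⟩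

theorem DecIn.inter {g : α → G} {S T : Set G} (h : DecIn g S) (h' : DecIn g T) :
    DecIn g (S ∩ T) := by
  obtain ⟨d, hd, hs⟩ := h
  obtain ⟨e, he, ht⟩ := h'
  exact ⟨fun w => d w && e w, (Primrec.and.to_comp).comp hd he,
    fun w => by simp [hs, ht]⟩

theorem DecIn.compl {g : α → G} {S : Set G} (h : DecIn g S) : DecIn g Sᶜ := by
  obtain ⟨d, hd, hs⟩ := h
  exact ⟨fun w => !d w, Primrec.not.to_comp.comp hd, fun w => by
    rw [Set.mem_compl_iff, ← hs]; simp⟩

/-- Pull back along a map of words. -/
theorem DecIn.comap {g : α → G} {g' : β → H} {S : Set G} {T : Set H} (h : DecIn g S)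
    {f : Wd β → Wd α} (hf : Computable f) (e : ∀ w, ev g (f w) ∈ S ↔ ev g' w ∈ T) :
    DecIn g' T := by
  obtain ⟨d, hd, hs⟩ := h
  exact ⟨fun w => d (f w), hd.comp hf, fun w => (hs _).trans (e w)⟩

/-- Decidable word problem. -/
def DecWP (g : α → G) : Prop := DecIn g ({1} : Set G)

theorem DecWP.eq {g : α → G} (h : DecWP g) :
    ∃ d : Wd α → Wd α → Bool, Computable₂ d ∧ ∀ v w, d v w = true ↔ ev g v = ev g w := by
  obtain ⟨d, hd, hs⟩ := h
  refine ⟨fun v w => d (invW v ++ w), Computable.to₂ (hd.comp (Computable.list_append.comp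
    (primrec_invW.to_comp.comp Computable.fst) Computable.snd)), fun v w => ?_⟩
  rw [hs, Set.mem_singleton_iff, ev_append, ev_invW, inv_mul_eq_one]

/-- For finitely many pairs of words whose correspondence extends to a map `φ` on the
subgroup generated by the first components, a word for the image can be computed. -/
theorem exists_transfer [Finite β] {g : α → G} (hwp : DecWP g) {A : Subgroup G} (hA : DecIn g (A : Set G))
    (φ : A → G) (u v : β → Wd α) (hu : Subgroup.closure (Set.range fun j => ev g (u j)) = A)
    (hφ : ∀ (w : Wd β) (h : ev (fun j => ev g (u j)) w ∈ A),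
      φ ⟨_, h⟩ = ev (fun j => ev g (v j)) w) :
    ∃ f : Wd α → Wd α, Computable f ∧
      ∀ w (h : ev g w ∈ A), ev g (f w) = φ ⟨ev g w, h⟩ := by
  obtain ⟨d, hd, hs⟩ := hwp.eq
  obtain ⟨dA, hdA, hsA⟩ := hA
  have hp : Computable₂ fun (w : Wd α) (x : Wd β) => !dA w || d (subst u x) w :=
    Computable.to₂ <| Primrec.or.to_comp.comp
      (Primrec.not.to_comp.comp (hdA.comp Computable.fst))
      (hd.comp ((primrec_subst u).to_comp.comp Computable.snd) Computable.fst)
  have hex : ∀ w, ∃ x : Wd β, (!dA w || d (subst u x) w) = true := fun w => by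
    by_cases hw : ev g w ∈ A
    · have hw' : ev g w ∈ Subgroup.closure (Set.range fun j => ev g (u j)) := hu.symm ▸ hw
      obtain ⟨x, hx⟩ := exists_word _ hw'
      exact ⟨x, by simp [(hs _ _).2 (show ev g (subst u x) = ev g w by rw [ev_subst, hx])]⟩
    · exact ⟨[], by simp [Bool.eq_false_iff.2 (mt (hsA w).1 hw)]⟩
  obtain ⟨f, hf, hpf⟩ := computable_search hp hex
  refine ⟨fun w => subst v (f w), (primrec_subst v).to_comp.comp hf, fun w hw => ?_⟩
  have h1 : ev g (subst u (f w)) = ev g w := by
    have := hpf w
    rw [(hsA w).2 hw] at this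
    exact (hs _ _).1 (by simpa using this)
  rw [ev_subst] at h1 ⊢
  rw [← hφ (f w) (by rw [h1]; exact hw)]
  exact congrArg φ (Subtype.ext h1)

end DecIn

section Free

/-- One step of free reduction. -/
def redStep [DecidableEq α] (a : α × Bool) (acc : Wd α) : Wd α :=
  match acc with
  | [] => [a]
  | b :: l => if a.1 = b.1 ∧ a.2 = !b.2 then l else a :: b :: l

theorem foldr_redStep [DecidableEq α] (w : Wd α) :
    w.foldr redStep [] = FreeGroup.reduce w := by
  induction w with
  | nil => rfl
  | cons a w ih =>
    rw [List.foldr_cons, ih, FreeGroup.reduce.cons]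
    rcases h : FreeGroup.reduce w with - | ⟨b, l⟩ <;> simp [redStep]

theorem primrec_reduce [Primcodable α] [DecidableEq α] :
    Primrec (FreeGroup.reduce : Wd α → Wd α) := by
  refine (Primrec.list_foldr .id (.const []) (h := fun _ p => redStep p.1 p.2) ?_).of_eq
    foldr_redStep
  have hc : Primrec fun p : (α × Bool) × (α × Bool) =>
      decide (p.1.1 = p.2.1) && decide (p.1.2 = !p.2.2) :=
    Primrec.and.comp
      (Primrec.eq.comp (Primrec.fst.comp Primrec.fst) (Primrec.fst.comp Primrec.snd)).decide
      (Primrec.eq.comp (Primrec.snd.comp Primrec.fst)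
        (Primrec.not.comp (Primrec.snd.comp Primrec.snd))).decide
  have : Primrec fun p : (α × Bool) × Wd α => redStep p.1 p.2 := by
    refine (Primrec.list_casesOn (f := fun p : (α × Bool) × Wd α => p.2)
      (g := fun p => [p.1]) (h := fun p q => bif (decide (p.1.1 = q.1.1) && decide (p.1.2 = !q.1.2))
        then q.2 else p.1 :: q.1 :: q.2) Primrec.snd
      (Primrec.list_cons.comp Primrec.fst (.const [])) ?_).of_eq fun p => ?_
    · exact (Primrec.cond
        (hc.comp ((Primrec.fst.comp Primrec.fst).pair (Primrec.fst.comp Primrec.snd)))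
        (Primrec.snd.comp Primrec.snd)
        (Primrec.list_cons.comp (Primrec.fst.comp Primrec.fst)
          (Primrec.list_cons.comp (Primrec.fst.comp Primrec.snd)
            (Primrec.snd.comp Primrec.snd)))).to₂
    · obtain ⟨a, _ | ⟨b, l⟩⟩ := p
      · rfl
      · by_cases h : a.1 = b.1 <;> by_cases h' : a.2 = !b.2 <;> simp [redStep, h, h']
  exact (this.comp Primrec.snd).to₂

theorem mk_eq_one [DecidableEq α] (w : Wd α) :
    FreeGroup.mk w = 1 ↔ FreeGroup.reduce w = [] := by
  rw [← FreeGroup.toWord_eq_nil_iff, FreeGroup.toWord_mk]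

theorem ev_of (w : Wd α) : ev (FreeGroup.of (α := α)) w = FreeGroup.mk w := by
  rw [ev_eq_lift, FreeGroup.lift_of_eq_id]; rfl

theorem decWP_free [Primcodable α] [DecidableEq α] : DecWP (FreeGroup.of (α := α)) := by
  refine ⟨fun w => decide (FreeGroup.reduce w = []), ?_, fun w => ?_⟩
  · exact (Primrec.eq.comp primrec_reduce (.const [])).decide.to_comp
  · rw [decide_eq_true_iff, Set.mem_singleton_iff, ev_of, mk_eq_one]

end Free

end Vale.Agent.P193.Clapham
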